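import Vale.Agent.P268.T.DeltaR
import Vale.Agent.P268.T.N625.RealR

/-!
# P268, topological half: ZIP (first half of SPLIT), definitions

`k` runs parallel to `j` over `x i₀ ≥ -1/4`.  In the ZIP the sheet `k` is lowered onto `j`,
beginning at the far end of the cube: its centre is `b k + θ (b j - b k)`, where `θ = c01 (G + 1)`
is a steep ramp in the direction `i₀`, `G = K (zY - c)`, with `c` moving from `5` to `0`.
-/

set_option linter.unusedSectionVars false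

namespace Vale.Agent.P268.T.Z293

open Set Filter Topology Metric

section Maps

variable {ι : Type*} [Fintype ι] [DecidableEq ι]

/-- `max ‖p'‖ (|u₀| / 2)`, where `p'` are the coordinates other than `i₀`. -/
noncomputable def zm (i₀ : ι) (s : ℝ × (ι → ℝ)) : ℝ :=
  max ‖Function.update s.2 i₀ 0‖ (|s.1| / 2)

/-- The coordinate `kap s i₀`, extended beyond the faces `± 1`. -/
noncomputable def zY (i₀ : ι) (s : ℝ × (ι → ℝ)) : ℝ := s.2 i₀ / max (zm i₀ s) (|s.2 i₀| / 4)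

/-- Clamp to the unit interval. -/
def c01 (t : ℝ) : ℝ := max 0 (min t 1)

/-- The ramp. -/
noncomputable def zth (i₀ : ι) (c K : ℝ) (s : ℝ × (ι → ℝ)) : ℝ := c01 (K * (zY i₀ s - c) + 1)

/-- The window: constant near the ramp (the identity for `c ≤ 1 / 4` and for `5 ≤ c`). -/
noncomputable def zphi (c x : ℝ) : ℝ := x - max 0 (min (x - (c - 1 / 8)) (min (1 / 4) (c - 1 / 4)))

/-- The window, on the cube. -/
noncomputable def zPhi (i₀ : ι) (c : ℝ) (x : ι → ℝ) : ι → ℝ :=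
  Function.update x i₀ (zphi c (x i₀))

end Maps

section Plates

variable {T P V A : Type*} [TopologicalSpace T] [NormedAddCommGroup P] [NormedSpace ℝ P]
  [NormedAddCommGroup V] [InnerProductSpace ℝ V] [DecidableEq A]

/-- Centres: the sheet `k` is moved towards `j` by the fraction `θ`. -/
def zcen (j k : A) (b : A → P → V) (θ : ℝ) (i : A) (x : P) : V :=
  if i = k then b k x + θ • (b j x - b k x) else b i x

/-- The plates of the ZIP. -/
noncomputable def zpl (e : V) (ε R M : ℝ) (j k : A) (b ν : T → A → P → V) (G : T → ℝ × P → ℝ) :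
    SheetData T ((ℝ × P) × V) V (Option A) where
  w τ a x := a.elim x.2 fun i =>
    x.2 - ‖x.1‖ • zcen j k (b τ) (c01 (G τ x.1 + 1)) i (kap x.1)
  ν τ a x := a.elim e fun i => ν τ i (kap x.1)
  r _ a x := a.elim (R * ‖x.1‖) fun _ => ε * ‖x.1‖
  σ _ a x := a.elim (M * (‖x.1.2‖ - |x.1.1|)) fun _ => M * (x.1.1 - ‖x.1.2‖ / 2)

/-- Crotch condition: a base direction `α` along which the ramp grows and the data of `j` and `k`
do not change. -/
def Cro (s : Set T) (ε R : ℝ) (j k : A) (b ν : T → A → P → V) (G : T → ℝ × P → ℝ) (t : T)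
    (x : ℝ × P) : Prop :=
  ∃ (α : ℝ × P) (lam q L d : ℝ), 0 < lam ∧ 0 ≤ q ∧ 0 < d ∧ R * q < 2 * ε * lam * ‖x‖ ∧
    ∃ U ∈ 𝓝 x, ∀ᶠ τ in 𝓝[s] t, ∀ y ∈ U, ∀ γ : ℝ, 0 ≤ γ → y + γ • α ∈ U →
      lam * γ ≤ G τ (y + γ • α) - G τ y ∧ G τ (y + γ • α) - G τ y ≤ L * γ ∧
      (b τ j (kap (y + γ • α)) = b τ j (kap y) ∧ b τ k (kap (y + γ • α)) = b τ k (kap y) ∧
        ν τ j (kap (y + γ • α)) = ν τ j (kap y) ∧ ν τ k (kap (y + γ • α)) = ν τ k (kap y)) ∧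
      |‖y + γ • α‖ - ‖y‖| ≤ q * γ ∧
      (‖x.2‖ = x.1 → d * γ ≤ (‖(y + γ • α).2‖ - |(y + γ • α).1|) - (‖y.2‖ - |y.1|))

/-- A ZIP family. -/
structure ZFam (s : Set T) (e : V) (ε R M : ℝ) (j k : A) (b ν : T → A → P → V)
    (G : T → ℝ × P → ℝ) : Prop where
  fam : BFam s e b ν
  jk : j ≠ k
  he : ‖e‖ = 1
  adm : ∀ t ∈ s, Adm ε R M (b t)
  cG : ContinuousOn (fun q : T × (ℝ × P) => G q.1 q.2) (s ×ˢ {x | x ≠ 0})
  hG : ∀ t ∈ s, ∀ l : ℝ, 0 < l → ∀ x, G t (l • x) = G t x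
  /-- where the ramp is positive, `j` and `k` are parallel and the others avoid the segment -/
  par : ∀ t ∈ s, ∀ x : ℝ × P, x ≠ 0 → -1 < G t x → ν t k (kap x) = ν t j (kap x) ∧
    inner ℝ (b t k (kap x) - b t j (kap x)) (ν t j (kap x)) = 0 ∧
    ∀ i, i ≠ j → i ≠ k → ∀ θ ∈ Icc (0 : ℝ) 1,
      4 * ε ≤ ‖b t i (kap x) - (b t k (kap x) + θ • (b t j (kap x) - b t k (kap x)))‖
  /-- at the front of the slab -/
  slab : ∀ t ∈ s, ∀ x : ℝ × P, x ≠ 0 → |x.1| = ‖x.2‖ → DirLip s G t x (1, 0)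
  cro : ∀ t ∈ s, ∀ x : ℝ × P, x ≠ 0 → ‖x.2‖ ≤ x.1 → -1 < G t x → G t x < 0 →
    Cro s ε R j k b ν G t x

end Plates

section Data

variable {ι : Type*} [Fintype ι] [DecidableEq ι]
variable {V A : Type*} [NormedAddCommGroup V] [InnerProductSpace ℝ V] [DecidableEq A]

/-- **The end of the ZIP**: `k` is parallel to `j` for `p i₀ ≤ - ‖s‖ / K`, comes down to `j`, and
coincides with `j` for `p i₀ ≥ 0`. -/
noncomputable def ZN [Fintype A] (i₀ : ι) (e : V) (ε R M K : ℝ) (j k : A)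
    (b ν : A → (ι → ℝ) → V) : (ℝ × (ι → ℝ)) × V → ℂ :=
  (zpl e ε R M j k (fun _ : Unit => b) (fun _ => ν) (fun _ s => K * (s.2 i₀ / ‖s‖))).fn ε
    (fun x => ‖x.1‖) ()

/-- Hypotheses of the ZIP. -/
structure ZDat (i₀ : ι) (e : V) (ε : ℝ) (j k : A) (b ν : A → (ι → ℝ) → V) : Prop where
  dat : BData e b ν
  jk : j ≠ k
  /-- over `x i₀ ≥ -1/4` the sheets `j`, `k` are parallel -/
  nu : ∀ x ∈ closedBall (0 : ι → ℝ) 1, -(1 / 4) ≤ x i₀ → ν k x = ν j x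
  perp : ∀ x ∈ closedBall (0 : ι → ℝ) 1, -(1 / 4) ≤ x i₀ →
    inner ℝ (b k x - b j x) (ν j x) = 0
  /-- the other sheets avoid the segment from `k` to `j` -/
  sepi : ∀ i, i ≠ j → i ≠ k → ∀ x ∈ closedBall (0 : ι → ℝ) 1, -(1 / 4) ≤ x i₀ →
    ∀ θ ∈ Icc (0 : ℝ) 1, 4 * ε ≤ ‖b i x - (b k x + θ • (b j x - b k x))‖
  /-- over `|x i₀| ≤ 1 / 4` the data do not depend on `x i₀` -/
  cL : ∀ i, ∀ x ∈ closedBall (0 : ι → ℝ) 1, ∀ t, |x i₀| ≤ 1 / 4 → |t| ≤ 1 / 4 →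
    b i (Function.update x i₀ t) = b i x ∧ ν i (Function.update x i₀ t) = ν i x
  /-- over `3 / 4 ≤ x i₀` the data are constant -/
  cR : ∀ i, ∀ x ∈ closedBall (0 : ι → ℝ) 1, ∀ y ∈ closedBall (0 : ι → ℝ) 1, 3 / 4 ≤ x i₀ →
    3 / 4 ≤ y i₀ → b i x = b i y ∧ ν i x = ν i y

end Data

end Vale.Agent.P268.T.Z293
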