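import Vale.Agent.P268.T.N625.RealR
import Vale.Agent.P268.T.PlatesF

/-!
# P268, topological half: growth criterion at a zero

`RegAt.of_grow`: `F` is regular at `x₀` if its real part grows along `a` and is flat along `e`, and
its imaginary part grows along `e` and is Lipschitz along `a`.  `regAt_grow`: the version for
families of sheets; only the active pieces matter.
-/

set_option linter.unusedSectionVars false

namespace Vale.Agent.P268.T.Z293

open Set Filter Topology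

variable {E : Type*} [NormedAddCommGroup E] [NormedSpace ℝ E]
  {T : Type*} [TopologicalSpace T]

/-- `f` is flat along `e` at `(t₀, x₀)`: its slope along `e` is arbitrarily small nearby. -/
def Flat (s : Set T) (f : T → E → ℝ) (t₀ : T) (x₀ : E) (e : E) : Prop :=
  ∀ κ : ℝ, 0 < κ → ∃ U ∈ 𝓝 x₀, ∀ᶠ t in 𝓝[s] t₀, ∀ x ∈ U, ∀ τ : ℝ, x + τ • e ∈ U →
    |f t (x + τ • e) - f t x| ≤ κ * |τ|

theorem amgm {κ θ q r i : ℝ} (hκ : 0 < κ) (hq : q ^ 2 ≤ κ * θ) :
    2 * (q * r * i) ≤ κ * r ^ 2 + θ * i ^ 2 := by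
  have h1 : 0 ≤ (κ * r - q * i) ^ 2 := sq_nonneg _
  have h2 : q ^ 2 * i ^ 2 ≤ κ * θ * i ^ 2 := mul_le_mul_of_nonneg_right hq (sq_nonneg i)
  have h3 : κ * (2 * (q * r * i)) ≤ κ * (κ * r ^ 2 + θ * i ^ 2) := by
    have e1 : (κ * r - q * i) ^ 2 = κ * (κ * r ^ 2) - κ * (2 * (q * r * i)) + q ^ 2 * i ^ 2 := by
      ring
    have e2 : κ * (κ * r ^ 2 + θ * i ^ 2) = κ * (κ * r ^ 2) + κ * θ * i ^ 2 := by ring
    rw [e2]
    rw [e1] at h1
    linarith
  exact le_of_mul_le_mul_left h3 hκ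

/-- **Growth criterion.** -/
theorem of_grow {s : Set T} {F : T → E → ℂ} {t₀ : T} {x₀ : E} {a e : E}
    (hg : Grows s (fun t x => (F t x).re) t₀ x₀ a)
    (hLa : DirLip s (fun t x => (F t x).re) t₀ x₀ a)
    (hfl : Flat s (fun t x => (F t x).re) t₀ x₀ e)
    (hIa : DirLip s (fun t x => (F t x).im) t₀ x₀ a)
    (hIg : Grows s (fun t x => (F t x).im) t₀ x₀ e)
    (hIe : DirLip s (fun t x => (F t x).im) t₀ x₀ e) : RegAt s F t₀ x₀ := by
  obtain ⟨κ, hκ, U1, hU1, h1⟩ := hg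
  obtain ⟨La, U2, hU2, h2⟩ := hLa
  obtain ⟨Λ', U4, hU4, h4⟩ := hIa
  obtain ⟨θ, hθ, U5, hU5, h5⟩ := hIg
  obtain ⟨Le, U6, hU6, h6⟩ := hIe
  set Λ : ℝ := |Λ'| with hΛ
  have hΛ0 : 0 ≤ Λ := abs_nonneg _
  set M : ℝ := κ * θ / (4 * (Λ + 1) ^ 2) with hM
  have hM0 : 0 < M := by positivity
  set q : ℝ := (Λ + 1) * M with hq
  have hq0 : 0 < q := by positivity
  obtain ⟨U3, hU3, h3⟩ := hfl q hq0
  have hq2 : (2 * q) ^ 2 ≤ κ * M * θ := by
    have : (2 * q) ^ 2 = (4 * (Λ + 1) ^ 2 * M) * M := by rw [hq]; ring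
    rw [this, hM]
    have h8 : 4 * (Λ + 1) ^ 2 * (κ * θ / (4 * (Λ + 1) ^ 2)) = κ * θ := by field_simp
    rw [h8]
    apply le_of_eq
    ring
  obtain ⟨r, hr, hball⟩ := Metric.mem_nhds_iff.mp
    (inter_mem (inter_mem hU1 (inter_mem hU2 hU3)) (inter_mem hU4 (inter_mem hU5 hU6)))
  set δ : ℝ := r / 2 / (1 + M * ‖a‖ + ‖e‖) with hδ
  have hden : 0 < 1 + M * ‖a‖ + ‖e‖ := by positivity
  have hδ0 : 0 < δ := by positivity
  have hδr : δ * (1 + M * ‖a‖ + ‖e‖) = r / 2 := by rw [hδ]; field_simp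
  let B : ℂ →L[ℝ] E := (M • Complex.reCLM).smulRight a + Complex.imCLM.smulRight e
  have hB : ∀ c, B c = (M * c.re) • a + c.im • e := fun c => by simp [B]
  refine RegAt.of_monotone_small (κ := min (κ * M) θ / 2)
    (Λ := |La| * M + q + (Λ * M + |Le|)) (by
      have := lt_min (mul_pos hκ hM0) hθ
      linarith) hδ0 B ⟨Metric.ball x₀ (r / 2), Metric.ball_mem_nhds _ (by linarith), ?_⟩
  filter_upwards [h1, h2, h3, h4, h5, h6] with t g1 g2 g3 g4 g5 g6 x hx c hc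
  have hxr : ‖x - x₀‖ < r / 2 := by rwa [Metric.mem_ball, dist_eq_norm] at hx
  have hmem : ∀ y, ‖y - x‖ ≤ r / 2 → y ∈ (U1 ∩ (U2 ∩ U3)) ∩ (U4 ∩ (U5 ∩ U6)) := by
    intro y hy
    refine hball ?_
    rw [Metric.mem_ball, dist_eq_norm]
    have : y - x₀ = (y - x) + (x - x₀) := by abel
    rw [this]
    exact (norm_add_le _ _).trans_lt (by linarith)
  have hre : |c.re| ≤ δ := (Complex.abs_re_le_norm c).trans hc
  have him' : |c.im| ≤ δ := (Complex.abs_im_le_norm c).trans hc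
  have hx' := hmem x (by rw [sub_self, norm_zero]; linarith)
  have hx1 := hmem (x + c.im • e) (by
    rw [add_sub_cancel_left, norm_smul, Real.norm_eq_abs]
    calc |c.im| * ‖e‖ ≤ δ * ‖e‖ := mul_le_mul_of_nonneg_right him' (norm_nonneg _)
      _ ≤ δ * (1 + M * ‖a‖ + ‖e‖) := mul_le_mul_of_nonneg_left (by
          have : 0 ≤ M * ‖a‖ := by positivity
          linarith) hδ0.le
      _ = r / 2 := hδr)
  have hx2 := hmem (x + B c) (by
    rw [add_sub_cancel_left, hB]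
    refine (norm_add_le _ _).trans ?_
    rw [norm_smul, norm_smul, Real.norm_eq_abs, Real.norm_eq_abs, abs_mul, abs_of_pos hM0]
    calc M * |c.re| * ‖a‖ + |c.im| * ‖e‖ ≤ M * δ * ‖a‖ + δ * ‖e‖ := by gcongr
      _ = δ * (M * ‖a‖ + ‖e‖) := by ring
      _ ≤ δ * (1 + M * ‖a‖ + ‖e‖) := mul_le_mul_of_nonneg_left (by linarith) hδ0.le
      _ = r / 2 := hδr)
  have e1 : x + B c = (x + c.im • e) + (M * c.re) • a := by rw [hB]; abel
  set y := x + c.im • e with hy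
  set D1 := (F t (y + (M * c.re) • a)).re - (F t y).re with hD1
  set D2 := (F t y).re - (F t x).re with hD2
  set I1 := (F t (y + (M * c.re) • a)).im - (F t y).im with hI1
  set I2 := (F t y).im - (F t x).im with hI2
  have hRe : (F t (x + B c) - F t x).re = D1 + D2 := by
    rw [Complex.sub_re, e1, hD1, hD2]; ring
  have hIm : (F t (x + B c) - F t x).im = I1 + I2 := by
    rw [Complex.sub_im, e1, hI1, hI2]; ring
  rw [e1] at hx2
  have k1 := g1 y hx1.1.1 (M * c.re) hx2.1.1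
  have k2 := g2 y hx1.1.2.1 (M * c.re) hx2.1.2.1
  have k3 := g3 x hx'.1.2.2 c.im hx1.1.2.2
  have k4 := g4 y hx1.2.1 (M * c.re) hx2.2.1
  have k5 := g5 x hx'.2.2.1 c.im hx1.2.2.1
  have k6 := g6 x hx'.2.2.2 c.im hx1.2.2.2
  have hr0 := abs_nonneg c.re
  have hi0 := abs_nonneg c.im
  have k1' : κ * M * c.re ^ 2 ≤ c.re * D1 := by
    have : M * (κ * M * c.re ^ 2) ≤ M * (c.re * D1) := by
      calc M * (κ * M * c.re ^ 2) = κ * (M * c.re) ^ 2 := by ring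
        _ ≤ M * c.re * D1 := k1
        _ = _ := by ring
    exact le_of_mul_le_mul_left this hM0
  have k2' : |D1| ≤ |La| * M * |c.re| := by
    rw [abs_mul, abs_of_pos hM0] at k2
    refine k2.trans ?_
    calc La * (M * |c.re|) ≤ |La| * (M * |c.re|) :=
          mul_le_mul_of_nonneg_right (le_abs_self La) (by positivity)
      _ = _ := by ring
  have k4' : |I1| ≤ Λ * M * |c.re| := by
    rw [abs_mul, abs_of_pos hM0] at k4
    refine k4.trans ?_
    calc Λ' * (M * |c.re|) ≤ Λ * (M * |c.re|) :=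
          mul_le_mul_of_nonneg_right (le_abs_self Λ') (by positivity)
      _ = _ := by ring
  have k6' : |I2| ≤ |Le| * |c.im| := k6.trans
    (mul_le_mul_of_nonneg_right (le_abs_self Le) hi0)
  constructor
  · rw [inner_complex, hRe, hIm]
    have j1 : -(q * |c.im| * |c.re|) ≤ c.re * D2 := by
      have : |c.re * D2| ≤ q * |c.im| * |c.re| := by
        rw [abs_mul, mul_comm]
        exact mul_le_mul_of_nonneg_right k3 hr0
      exact (abs_le.mp this).1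
    have j2 : -(Λ * M * |c.re| * |c.im|) ≤ c.im * I1 := by
      have : |c.im * I1| ≤ Λ * M * |c.re| * |c.im| := by
        rw [abs_mul, mul_comm]
        exact mul_le_mul_of_nonneg_right k4' hi0
      exact (abs_le.mp this).1
    have j3 := amgm (r := |c.re|) (i := |c.im|) (mul_pos hκ hM0) hq2
    rw [sq_abs, sq_abs] at j3
    have j4 : Λ * M * |c.re| * |c.im| ≤ q * |c.re| * |c.im| := by
      rw [hq]
      have : 0 ≤ M * |c.re| * |c.im| := by positivity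
      nlinarith
    have j5 : q * |c.im| * |c.re| + q * |c.re| * |c.im| = 2 * q * |c.re| * |c.im| := by ring
    have g8 : ‖c‖ ^ 2 = c.re ^ 2 + c.im ^ 2 := by
      rw [Complex.sq_norm, Complex.normSq_apply]; ring
    rw [g8]
    have j6 : min (κ * M) θ / 2 * (c.re ^ 2 + c.im ^ 2) ≤
        (κ * M * c.re ^ 2 + θ * c.im ^ 2) / 2 := by
      have i1 : min (κ * M) θ * c.re ^ 2 ≤ κ * M * c.re ^ 2 :=
        mul_le_mul_of_nonneg_right (min_le_left _ _) (sq_nonneg _)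
      have i2 : min (κ * M) θ * c.im ^ 2 ≤ θ * c.im ^ 2 :=
        mul_le_mul_of_nonneg_right (min_le_right _ _) (sq_nonneg _)
      linarith
    have j7 : (D1 + D2) * c.re + (I1 + I2) * c.im =
        c.re * D1 + c.re * D2 + (c.im * I1 + c.im * I2) := by ring
    have k5' : θ * c.im ^ 2 ≤ c.im * I2 := k5
    rw [j7]
    linarith
  · refine (Complex.norm_le_abs_re_add_abs_im _).trans ?_
    rw [hRe, hIm]
    have hcr := Complex.abs_re_le_norm c
    have hci := Complex.abs_im_le_norm c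
    have i1 : |D1 + D2| ≤ |La| * M * |c.re| + q * |c.im| := (abs_add_le _ _).trans
      (add_le_add k2' k3)
    have i2 : |I1 + I2| ≤ Λ * M * |c.re| + |Le| * |c.im| := (abs_add_le _ _).trans
      (add_le_add k4' k6')
    have i3 : |La| * M * |c.re| ≤ |La| * M * ‖c‖ := mul_le_mul_of_nonneg_left hcr (by positivity)
    have i4 : q * |c.im| ≤ q * ‖c‖ := mul_le_mul_of_nonneg_left hci hq0.le
    have i5 : Λ * M * |c.re| ≤ Λ * M * ‖c‖ := mul_le_mul_of_nonneg_left hcr (by positivity)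
    have i6 : |Le| * |c.im| ≤ |Le| * ‖c‖ := mul_le_mul_of_nonneg_left hci (abs_nonneg _)
    have i7 : (|La| * M + q + (Λ * M + |Le|)) * ‖c‖ = |La| * M * ‖c‖ + q * ‖c‖ +
        (Λ * M * ‖c‖ + |Le| * ‖c‖) := by ring
    rw [i7]
    linarith

/-! ### Pieces -/

variable {ι : Type*} {s : Set T} {t₀ : T} {x₀ : E} {a e : E} {P : Finset ι} {h : ι → T → E → ℝ}

theorem fin_grows (hg : ∀ i ∈ P, Grows s (h i) t₀ x₀ a) :
    ∃ κ : ℝ, 0 < κ ∧ ∃ U ∈ 𝓝 x₀, ∀ᶠ t in 𝓝[s] t₀, ∀ i ∈ P, GrowsOn κ (h i t) a U := by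
  classical
  induction P using Finset.induction_on with
  | empty => exact ⟨1, one_pos, univ, univ_mem, Eventually.of_forall fun t i hi => by simp at hi⟩
  | insert b Q hb IH =>
    obtain ⟨κ, hκ, U, hU, h1⟩ := IH fun i hi => hg i (Finset.mem_insert_of_mem hi)
    obtain ⟨κ', hκ', V, hV, h2⟩ := hg b (Finset.mem_insert_self _ _)
    refine ⟨min κ κ', lt_min hκ hκ', U ∩ V, inter_mem hU hV, ?_⟩
    filter_upwards [h1, h2] with t e1 e2 i hi
    rcases Finset.mem_insert.mp hi with rfl | hi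
    · exact (e2.mono inter_subset_right).mono_const (min_le_right _ _)
    · exact ((e1 i hi).mono inter_subset_left).mono_const (min_le_left _ _)

theorem fin_lip (hg : ∀ i ∈ P, DirLip s (h i) t₀ x₀ a) :
    ∃ L : ℝ, ∃ U ∈ 𝓝 x₀, ∀ᶠ t in 𝓝[s] t₀, ∀ i ∈ P, ∀ x ∈ U, ∀ τ : ℝ, x + τ • a ∈ U →
      |h i t (x + τ • a) - h i t x| ≤ L * |τ| := by
  classical
  induction P using Finset.induction_on with
  | empty => exact ⟨1, univ, univ_mem, Eventually.of_forall fun t i hi => by simp at hi⟩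
  | insert b Q hb IH =>
    obtain ⟨L, U, hU, h1⟩ := IH fun i hi => hg i (Finset.mem_insert_of_mem hi)
    obtain ⟨L', V, hV, h2⟩ := hg b (Finset.mem_insert_self _ _)
    refine ⟨max L L', U ∩ V, inter_mem hU hV, ?_⟩
    filter_upwards [h1, h2] with t e1 e2 i hi x hx τ hτ
    rcases Finset.mem_insert.mp hi with rfl | hi
    · exact (e2 x hx.2 τ hτ.2).trans
        (mul_le_mul_of_nonneg_right (le_max_right _ _) (abs_nonneg _))
    · exact (e1 i hi x hx.1 τ hτ.1).trans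
        (mul_le_mul_of_nonneg_right (le_max_left _ _) (abs_nonneg _))

theorem fin_flat (hg : ∀ i ∈ P, Flat s (h i) t₀ x₀ e) {κ : ℝ} (hκ : 0 < κ) :
    ∃ U ∈ 𝓝 x₀, ∀ᶠ t in 𝓝[s] t₀, ∀ i ∈ P, ∀ x ∈ U, ∀ τ : ℝ, x + τ • e ∈ U →
      |h i t (x + τ • e) - h i t x| ≤ κ * |τ| := by
  classical
  induction P using Finset.induction_on with
  | empty => exact ⟨univ, univ_mem, Eventually.of_forall fun t i hi => by simp at hi⟩
  | insert b Q hb IH =>
    obtain ⟨U, hU, h1⟩ := IH fun i hi => hg i (Finset.mem_insert_of_mem hi)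
    obtain ⟨V, hV, h2⟩ := hg b (Finset.mem_insert_self _ _) κ hκ
    refine ⟨U ∩ V, inter_mem hU hV, ?_⟩
    filter_upwards [h1, h2] with t e1 e2 i hi x hx τ hτ
    rcases Finset.mem_insert.mp hi with rfl | hi
    · exact e2 x hx.2 τ hτ.2
    · exact e1 i hi x hx.1 τ hτ.1

variable {f : T → E → ℝ}

/-- Increments of `f` are bounded by those of the pieces. -/
def Pieces (s : Set T) (t₀ : T) (x₀ : E) (f : T → E → ℝ) (P : Finset ι)
    (h : ι → T → E → ℝ) : Prop :=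
  ∃ U ∈ 𝓝 x₀, ∀ᶠ t in 𝓝[s] t₀, ∀ x ∈ U, ∀ y ∈ U, ∃ i ∈ P, f t y - f t x ≤ h i t y - h i t x

theorem Pieces.abs_le (hp : Pieces s t₀ x₀ f P h) {v : E} {c : ℝ}
    (H : ∃ U ∈ 𝓝 x₀, ∀ᶠ t in 𝓝[s] t₀, ∀ i ∈ P, ∀ x ∈ U, ∀ τ : ℝ, x + τ • v ∈ U →
      |h i t (x + τ • v) - h i t x| ≤ c * |τ|) :
    ∃ U ∈ 𝓝 x₀, ∀ᶠ t in 𝓝[s] t₀, ∀ x ∈ U, ∀ τ : ℝ, x + τ • v ∈ U →
      |f t (x + τ • v) - f t x| ≤ c * |τ| := by
  obtain ⟨U, hU, h1⟩ := hp
  obtain ⟨V, hV, h2⟩ := H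
  refine ⟨U ∩ V, inter_mem hU hV, ?_⟩
  filter_upwards [h1, h2] with t e1 e2 x hx τ hτ
  obtain ⟨i, hi, k1⟩ := e1 x hx.1 _ hτ.1
  obtain ⟨j, hj, k2⟩ := e1 _ hτ.1 x hx.1
  have l1 := _root_.abs_le.mp (e2 i hi x hx.2 τ hτ.2)
  have l2 := _root_.abs_le.mp (e2 j hj x hx.2 τ hτ.2)
  rw [_root_.abs_le]
  constructor
  · linarith
  · linarith

theorem Pieces.grows (hp : Pieces s t₀ x₀ f P h) (hg : ∀ i ∈ P, Grows s (h i) t₀ x₀ a) :
    Grows s f t₀ x₀ a := by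
  obtain ⟨κ, hκ, V, hV, h2⟩ := fin_grows hg
  obtain ⟨U, hU, h1⟩ := hp
  refine ⟨κ, hκ, U ∩ V, inter_mem hU hV, ?_⟩
  filter_upwards [h1, h2] with t e1 e2
  refine GrowsOn.of_pos fun x hx τ hτ hxτ => ?_
  obtain ⟨j, hj, k2⟩ := e1 _ hxτ.1 x hx.1
  have := (e2 j hj).pos hx.2 hτ hxτ.2
  linarith

theorem Pieces.dirLip (hp : Pieces s t₀ x₀ f P h) (hg : ∀ i ∈ P, DirLip s (h i) t₀ x₀ a) :
    DirLip s f t₀ x₀ a := by
  obtain ⟨L, H⟩ := fin_lip hg
  exact ⟨L, hp.abs_le H⟩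

theorem Pieces.flat (hp : Pieces s t₀ x₀ f P h) (hg : ∀ i ∈ P, Flat s (h i) t₀ x₀ e) :
    Flat s f t₀ x₀ e := fun _ hκ => hp.abs_le (fin_flat hg hκ)

end Vale.Agent.P268.T.Z293
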