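import Vale.Agent.P268.T.H293.Grow

/-!
# P268, topological half: growth criterion for families of sheets
-/

set_option linter.unusedSectionVars false

namespace Vale.Agent.P268.T.Z293

open Set Filter Topology

variable {T E A : Type*} [TopologicalSpace T] [NormedAddCommGroup E] [NormedSpace ℝ E]
  [Fintype A] [Nonempty A]
variable {s : Set T} {η : ℝ} {N : E → ℝ} {rho be : T → A → E → ℝ}

open Classical in
/-- The active pieces. -/
noncomputable def pcs (rho f g : T → A → E → ℝ) (τ₀ : T) (x₀ : E) : Finset (A × Bool) :=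
  Finset.univ.filter fun i : A × Bool => rho τ₀ i.1 x₀ = gre rho τ₀ x₀ ∧
    (if i.2 then f τ₀ i.1 x₀ else g τ₀ i.1 x₀) = gre rho τ₀ x₀

/-- The pieces. -/
def pc (f g : T → A → E → ℝ) (i : A × Bool) (τ : T) (x : E) : ℝ :=
  if i.2 then f τ i.1 x else g τ i.1 x

/-- The increments of the real part are bounded by those of the active pieces. -/
theorem pieces (h : GlueL s η N rho be) {f g : T → A → E → ℝ}
    (hmin : ∀ τ a x, rho τ a x = min (f τ a x) (g τ a x))
    {τ₀ : T} (hτ₀ : τ₀ ∈ s) {x₀ : E}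
    (cf : ∀ a, ContinuousWithinAt (fun p : T × E => f p.1 a p.2) (s ×ˢ univ) (τ₀, x₀))
    (cg : ∀ a, ContinuousWithinAt (fun p : T × E => g p.1 a p.2) (s ×ˢ univ) (τ₀, x₀)) :
    Pieces s τ₀ x₀ (gre rho) (pcs rho f g τ₀ x₀) (pc f g) := by
  classical
  have h1 := h.active hτ₀ x₀
  have h2 : ∀ a, ∀ᶠ p : T × E in 𝓝[s ×ˢ univ] (τ₀, x₀), f τ₀ a x₀ < g τ₀ a x₀ →
      f p.1 a p.2 < g p.1 a p.2 := by
    intro a
    by_cases ha : f τ₀ a x₀ < g τ₀ a x₀
    · filter_upwards [Tendsto.eventually_lt (cf a) (cg a) ha] with p hp _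
      exact hp
    · exact Eventually.of_forall fun p hp => absurd hp ha
  have h3 : ∀ a, ∀ᶠ p : T × E in 𝓝[s ×ˢ univ] (τ₀, x₀), g τ₀ a x₀ < f τ₀ a x₀ →
      g p.1 a p.2 < f p.1 a p.2 := by
    intro a
    by_cases ha : g τ₀ a x₀ < f τ₀ a x₀
    · filter_upwards [Tendsto.eventually_lt (cg a) (cf a) ha] with p hp _
      exact hp
    · exact Eventually.of_forall fun p hp => absurd hp ha
  obtain ⟨U, hU, hev⟩ := ev_prod (Q := fun τ x =>
    (∃ a, rho τ₀ a x₀ = gre rho τ₀ x₀ ∧ gre rho τ x = rho τ a x) ∧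
    (∀ a, f τ₀ a x₀ < g τ₀ a x₀ → f τ a x < g τ a x) ∧
    (∀ a, g τ₀ a x₀ < f τ₀ a x₀ → g τ a x < f τ a x))
    (h1.and ((eventually_all.mpr h2).and (eventually_all.mpr h3)))
  refine ⟨U, hU, ?_⟩
  filter_upwards [hev] with τ hτ x hx y hy
  obtain ⟨a, ha, hya⟩ := (hτ y hy).1
  have hxa : rho τ a x ≤ gre rho τ x := gre_ge τ a x
  rcases le_total (f τ a x) (g τ a x) with hle | hle
  · refine ⟨(a, true), ?_, ?_⟩
    · simp only [pcs, Finset.mem_filter, Finset.mem_univ, true_and, if_true]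
      refine ⟨ha, ?_⟩
      rw [← ha, hmin]
      by_contra hne
      have h4 : g τ₀ a x₀ < f τ₀ a x₀ := by
        by_contra h5
        exact hne (min_eq_left (not_lt.mp h5)).symm
      exact absurd ((hτ x hx).2.2 a h4) (not_lt.mpr hle)
    · have h5 : rho τ a x = f τ a x := by rw [hmin, min_eq_left hle]
      have h6 : rho τ a y ≤ f τ a y := by rw [hmin]; exact min_le_left _ _
      simp only [pc, if_true]
      linarith
  · refine ⟨(a, false), ?_, ?_⟩
    · simp only [pcs, Finset.mem_filter, Finset.mem_univ, true_and, Bool.false_eq_true, if_false]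
      refine ⟨ha, ?_⟩
      rw [← ha, hmin]
      by_contra hne
      have h4 : f τ₀ a x₀ < g τ₀ a x₀ := by
        by_contra h5
        exact hne (min_eq_right (not_lt.mp h5)).symm
      exact absurd ((hτ x hx).2.1 a h4) (not_lt.mpr hle)
    · have h5 : rho τ a x = g τ a x := by rw [hmin, min_eq_right hle]
      have h6 : rho τ a y ≤ g τ a y := by rw [hmin]; exact min_le_right _ _
      simp only [pc, Bool.false_eq_true, if_false]
      linarith

/-- Growth, Lipschitz and flatness conditions for one piece. -/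
structure GLF (s : Set T) (f : T → E → ℝ) (τ₀ : T) (x₀ a e : E) : Prop where
  gr : Grows s f τ₀ x₀ a
  li : DirLip s f τ₀ x₀ a
  fl : Flat s f τ₀ x₀ e

variable {V : Type*} [NormedAddCommGroup V] [InnerProductSpace ℝ V]
  {P : SheetData T E V A}

/-- **Growth criterion for sheets** at a zero: the active pieces grow along `a` and are flat along
`e`, the imaginary part of one active sheet is Lipschitz along `a` and grows along `e`. -/
theorem regAt_grow (h : P.BaseL s η N) {τ₀ : T} (hτ₀ : τ₀ ∈ s) {x₀ : E} (hx₀ : N x₀ ≠ 0)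
    (h0 : gre P.rho τ₀ x₀ = 0) {a e : E}
    (ht : ∀ b, P.rho τ₀ b x₀ = 0 → P.tp τ₀ b x₀ = 0 → GLF s (fun τ x => P.tp τ b x) τ₀ x₀ a e)
    (hs : ∀ b, P.rho τ₀ b x₀ = 0 → P.σ τ₀ b x₀ = 0 → GLF s (fun τ x => P.σ τ b x) τ₀ x₀ a e)
    (hb : ∀ b, P.rho τ₀ b x₀ = 0 → DirLip s (fun τ x => P.be τ b x) τ₀ x₀ a ∧
      DirLip s (fun τ x => P.be τ b x) τ₀ x₀ e ∧ Grows s (fun τ x => P.be τ b x) τ₀ x₀ e) :
    RegAt s (P.fn η N) τ₀ x₀ := by
  have ct : ∀ b, ContinuousWithinAt (fun p : T × E => P.tp p.1 b p.2) (s ×ˢ univ) (τ₀, x₀) :=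
    fun b => h.continuousOn_tp b (τ₀, x₀) ⟨hτ₀, mem_univ _⟩
  have cs : ∀ b, ContinuousWithinAt (fun p : T × E => P.σ p.1 b p.2) (s ×ˢ univ) (τ₀, x₀) :=
    fun b => h.cs b (τ₀, x₀) ⟨hτ₀, mem_univ _⟩
  have hp := pieces h.glueL (f := P.tp) (g := P.σ) (fun _ _ _ => rfl) hτ₀ ct cs
  have key : ∀ i ∈ pcs P.rho P.tp P.σ τ₀ x₀, GLF s (pc P.tp P.σ i) τ₀ x₀ a e := by
    rintro ⟨b, c⟩ hi
    simp only [pcs, Finset.mem_filter, Finset.mem_univ, true_and, h0] at hi
    cases c with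
    | false =>
      have e : pc P.tp P.σ (b, false) = fun τ x => P.σ τ b x := by
        funext τ x; simp [pc]
      rw [e]
      exact hs b hi.1 (by simpa using hi.2)
    | true =>
      have e : pc P.tp P.σ (b, true) = fun τ x => P.tp τ b x := by
        funext τ x; simp [pc]
      rw [e]
      exact ht b hi.1 (by simpa using hi.2)
  obtain ⟨b, hbb⟩ := exists_gre P.rho τ₀ x₀
  have hb0 : P.rho τ₀ b x₀ = 0 := by rw [← hbb, h0]
  obtain ⟨U, hU, hev⟩ := h.glueL.near hτ₀ hx₀ (a := b) hb0.ge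
  obtain ⟨hb1, hb2, hb3⟩ := hb b hb0
  have hc : ∃ U ∈ 𝓝 x₀, ∀ᶠ t in 𝓝[s] τ₀, ∀ x ∈ U, P.be t b x = (P.fn η N t x).im :=
    ⟨U, hU, hev.mono fun t ht x hx => (ht x hx).symm⟩
  exact of_grow (F := P.fn η N) (hp.grows fun i hi => (key i hi).gr)
    (hp.dirLip fun i hi => (key i hi).li) (hp.flat fun i hi => (key i hi).fl)
    (hb1.congr hc) (hb3.congr hc) (hb2.congr hc)

end Vale.Agent.P268.T.Z293
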