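import Vale.Agent.P268.T.H293.GrowS

/-!
# P268, topological half: growth of the pieces of a plate

Plates in fibre form: `w = x.2 - C x.1`, radius `r x.1`, normal `ν x.1`.  Directions `(α, ω)`:
`α` in the base, `ω` in the fibre.
-/

set_option linter.unusedSectionVars false

namespace Vale.Agent.P268.T.Z293

open Set Filter Topology

variable {T S V : Type*} [TopologicalSpace T] [NormedAddCommGroup S] [NormedSpace ℝ S]
  [NormedAddCommGroup V] [InnerProductSpace ℝ V]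

theorem incr_near {E : Type*} [NormedAddCommGroup E] [NormedSpace ℝ E] {s : Set T}
    {w : T → E → V} {t₀ : T} {x₀ : E}
    (hc : ContinuousWithinAt (fun p : T × E => w p.1 p.2) (s ×ˢ univ) (t₀, x₀))
    (hw : w t₀ x₀ ≠ 0) {κ : ℝ} (hκ : 0 < κ) :
    ∃ U ∈ 𝓝 x₀, ∀ᶠ t in 𝓝[s] t₀, ∀ x ∈ U, ∀ y ∈ U,
      |‖w t y‖ - ‖w t x‖ - inner ℝ (w t₀ x₀) (w t y - w t x) / ‖w t₀ x₀‖| ≤
        κ * ‖w t y - w t x‖ := by
  have h3 := norm_incr hw hκ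
  rw [nhds_prod_eq, eventually_prod_iff] at h3
  obtain ⟨pa, ha, pb, hb, hab⟩ := h3
  obtain ⟨U, hU, hev⟩ := ev_prod (Q := fun t x => pa (w t x) ∧ pb (w t x))
    (hc.eventually (ha.and hb))
  refine ⟨U, hU, ?_⟩
  filter_upwards [hev] with t ht x hx y hy
  exact hab (ht x hx).1 (ht y hy).2

theorem dirLip_of_pos {E : Type*} [NormedAddCommGroup E] [NormedSpace ℝ E] {s : Set T}
    {f : T → E → ℝ} {t₀ : T} {x₀ a : E} {L : ℝ}
    (h : ∃ U ∈ 𝓝 x₀, ∀ᶠ t in 𝓝[s] t₀, ∀ x ∈ U, ∀ γ : ℝ, 0 ≤ γ → x + γ • a ∈ U →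
      |f t (x + γ • a) - f t x| ≤ L * γ) : DirLip s f t₀ x₀ a := by
  obtain ⟨U, hU, hev⟩ := h
  refine ⟨L, U, hU, ?_⟩
  filter_upwards [hev] with t ht x hx γ hγ
  rcases le_total 0 γ with h0 | h0
  · rw [abs_of_nonneg h0]
    exact ht x hx γ h0 hγ
  · have h1 := ht (x + γ • a) hγ (-γ) (by linarith)
    have h2 : x + γ • a + (-γ) • a = x := by rw [neg_smul]; abel
    rw [h2] at h1
    rw [abs_sub_comm, abs_of_nonpos h0]
    exact h1 hx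

theorem grows_of_pos {E : Type*} [NormedAddCommGroup E] [NormedSpace ℝ E] {s : Set T}
    {f : T → E → ℝ} {t₀ : T} {x₀ a : E} {κ : ℝ} (hκ : 0 < κ)
    (h : ∃ U ∈ 𝓝 x₀, ∀ᶠ t in 𝓝[s] t₀, ∀ x ∈ U, ∀ γ : ℝ, 0 ≤ γ → x + γ • a ∈ U →
      κ * γ ≤ f t (x + γ • a) - f t x) : Grows s f t₀ x₀ a := by
  obtain ⟨U, hU, hev⟩ := h
  refine ⟨κ, hκ, U, hU, ?_⟩
  filter_upwards [hev] with t ht
  exact GrowsOn.of_pos fun x hx τ hτ hxτ => ht x hx τ hτ.le hxτ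

/-- The conditions on a plate along `(α, ω)` at a rim point, `w₀` the vector from the centre. -/
def TpDir (s : Set T) (C : T → S → V) (r : T → S → ℝ) (t₀ : T) (s₀ : S) (w₀ : V) (α : S)
    (ω : V) : Prop :=
  ∃ κ L : ℝ, 0 < κ ∧ ∃ U ∈ 𝓝 s₀, ∀ᶠ t in 𝓝[s] t₀, ∀ y ∈ U, ∀ γ : ℝ, 0 ≤ γ → y + γ • α ∈ U →
    κ * γ ≤ inner ℝ w₀ (C t (y + γ • α) - C t y) / ‖w₀‖ - γ * (inner ℝ w₀ ω / ‖w₀‖) +
      (r t (y + γ • α) - r t y) ∧
    ‖C t (y + γ • α) - C t y‖ ≤ L * γ ∧ |r t (y + γ • α) - r t y| ≤ L * γ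

variable {s : Set T} {C : T → S → V} {r : T → S → ℝ} {ν : T → S → V} {t₀ : T} {x₀ : S × V}
  {α : S} {ω ν₀ : V}

theorem fst_dir (x : S × V) (γ : ℝ) : (x + γ • ((α, ω) : S × V)).1 = x.1 + γ • α := rfl

theorem snd_dir (x : S × V) (γ : ℝ) : (x + γ • ((α, ω) : S × V)).2 = x.2 + γ • ω := rfl

theorem tp_glf
    (hc : ContinuousWithinAt (fun p : T × (S × V) => p.2.2 - C p.1 p.2.1) (s ×ˢ univ) (t₀, x₀))
    (hw : x₀.2 - C t₀ x₀.1 ≠ 0) (hν : inner ℝ (x₀.2 - C t₀ x₀.1) ν₀ = 0)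
    (H : TpDir s C r t₀ x₀.1 (x₀.2 - C t₀ x₀.1) α ω) :
    GLF s (fun t (x : S × V) => r t x.1 - ‖x.2 - C t x.1‖) t₀ x₀ (α, ω) (0, ν₀) := by
  obtain ⟨κ, L, hκ, U, hU, hev⟩ := H
  set w₀ := x₀.2 - C t₀ x₀.1 with hw₀
  have hwp : 0 < ‖w₀‖ := norm_pos_iff.mpr hw
  set κ' : ℝ := κ / (2 * (‖ω‖ + |L| + 1)) with hκ'
  have hκ'0 : 0 < κ' := by positivity
  obtain ⟨W, hW, hevW⟩ := incr_near (w := fun t (x : S × V) => x.2 - C t x.1) hc hw hκ'0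
  have hU' : (Prod.fst ⁻¹' U : Set (S × V)) ∈ 𝓝 x₀ :=
    continuous_fst.continuousAt.preimage_mem_nhds hU
  have hdec : ∀ (t : T) (x : S × V) (γ : ℝ), (x + γ • ((α, ω) : S × V)).2 -
      C t (x + γ • ((α, ω) : S × V)).1 - (x.2 - C t x.1) =
      γ • ω - (C t (x.1 + γ • α) - C t x.1) := by
    intro t x γ
    rw [fst_dir, snd_dir]; abel
  refine ⟨?_, ?_, ?_⟩
  · refine grows_of_pos (κ := κ / 2) (by linarith) ⟨W ∩ Prod.fst ⁻¹' U, inter_mem hW hU', ?_⟩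
    filter_upwards [hev, hevW] with t e1 e2 x hx γ hγ hxγ
    obtain ⟨d1, d2, d3⟩ := e1 x.1 hx.2 γ hγ hxγ.2
    have d4 := e2 x hx.1 _ hxγ.1
    rw [hdec, inner_sub_right, real_inner_smul_right] at d4
    have d5 : ‖γ • ω - (C t (x.1 + γ • α) - C t x.1)‖ ≤ (‖ω‖ + |L| + 1) * γ := by
      refine (norm_sub_le _ _).trans ?_
      rw [norm_smul, Real.norm_eq_abs, abs_of_nonneg hγ]
      have := mul_le_mul_of_nonneg_right (le_abs_self L) hγ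
      nlinarith
    have d6 : κ' * ‖γ • ω - (C t (x.1 + γ • α) - C t x.1)‖ ≤ κ / 2 * γ := by
      calc κ' * ‖γ • ω - (C t (x.1 + γ • α) - C t x.1)‖ ≤ κ' * ((‖ω‖ + |L| + 1) * γ) :=
            mul_le_mul_of_nonneg_left d5 hκ'0.le
        _ = κ / 2 * γ := by rw [hκ']; field_simp
    have d7 := (abs_le.mp (d4.trans d6)).2
    rw [sub_div, mul_div_assoc] at d7
    rw [fst_dir]
    rw [fst_dir] at d7
    linarith
  · refine dirLip_of_pos (L := ‖ω‖ + 2 * |L|) ⟨Prod.fst ⁻¹' U, hU', ?_⟩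
    filter_upwards [hev] with t e1 x hx γ hγ hxγ
    obtain ⟨-, d2, d3⟩ := e1 x.1 hx γ hγ hxγ
    have h1 : |‖(x + γ • ((α, ω) : S × V)).2 - C t (x + γ • ((α, ω) : S × V)).1‖ -
        ‖x.2 - C t x.1‖| ≤ ‖ω‖ * γ + |L| * γ := by
      refine (abs_norm_sub_norm_le _ _).trans ?_
      rw [hdec]
      refine (norm_sub_le _ _).trans ?_
      rw [norm_smul, Real.norm_eq_abs, abs_of_nonneg hγ]
      have := mul_le_mul_of_nonneg_right (le_abs_self L) hγ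
      linarith
    have e : r t (x + γ • ((α, ω) : S × V)).1 - ‖(x + γ • ((α, ω) : S × V)).2 -
        C t (x + γ • ((α, ω) : S × V)).1‖ - (r t x.1 - ‖x.2 - C t x.1‖) =
        (r t (x.1 + γ • α) - r t x.1) -
        (‖(x + γ • ((α, ω) : S × V)).2 - C t (x + γ • ((α, ω) : S × V)).1‖ -
        ‖x.2 - C t x.1‖) := by rw [fst_dir]; ring
    rw [e]
    refine (abs_sub _ _).trans ?_
    have := mul_le_mul_of_nonneg_right (le_abs_self L) hγ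
    have e2 : (‖ω‖ + 2 * |L|) * γ = |L| * γ + (‖ω‖ * γ + |L| * γ) := by ring
    rw [e2]
    exact add_le_add (d3.trans this) h1
  · intro κ₁ hκ₁
    obtain ⟨W₁, hW₁, hevW₁⟩ := incr_near (w := fun t (x : S × V) => x.2 - C t x.1) hc hw
      (κ := κ₁ / (‖ν₀‖ + 1)) (by positivity)
    refine ⟨W₁, hW₁, ?_⟩
    filter_upwards [hevW₁] with t e2 x hx γ hxγ
    have d4 := e2 x hx _ hxγ
    have hd : (x + γ • ((0, ν₀) : S × V)).2 - C t (x + γ • ((0, ν₀) : S × V)).1 -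
        (x.2 - C t x.1) = γ • ν₀ := by
      rw [fst_dir, snd_dir, smul_zero, add_zero]; abel
    have h0 : (x + γ • ((0, ν₀) : S × V)).1 = x.1 := by rw [fst_dir, smul_zero, add_zero]
    rw [hd, real_inner_smul_right, hν, mul_zero, zero_div, sub_zero, norm_smul,
      Real.norm_eq_abs] at d4
    have e : r t (x + γ • ((0, ν₀) : S × V)).1 - ‖(x + γ • ((0, ν₀) : S × V)).2 -
        C t (x + γ • ((0, ν₀) : S × V)).1‖ - (r t x.1 - ‖x.2 - C t x.1‖) =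
        -(‖(x + γ • ((0, ν₀) : S × V)).2 - C t (x + γ • ((0, ν₀) : S × V)).1‖ -
        ‖x.2 - C t x.1‖) := by
      rw [h0]
      ring
    rw [e, abs_neg]
    refine d4.trans ?_
    calc κ₁ / (‖ν₀‖ + 1) * (|γ| * ‖ν₀‖) = κ₁ * |γ| * (‖ν₀‖ / (‖ν₀‖ + 1)) := by ring
      _ ≤ κ₁ * |γ| * 1 := by
          refine mul_le_mul_of_nonneg_left ?_ (by positivity)
          rw [div_le_one (by positivity)]
          linarith
      _ = κ₁ * |γ| := mul_one _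

/-- Growth conditions for a function of the base point. -/
theorem base_glf {f : T → S → ℝ} (hg : Grows s f t₀ x₀.1 α) (hl : DirLip s f t₀ x₀.1 α) :
    GLF s (fun t (x : S × V) => f t x.1) t₀ x₀ (α, ω) (0, ν₀) := by
  refine ⟨?_, ?_, ?_⟩
  · obtain ⟨κ, hκ, U, hU, hev⟩ := hg
    refine ⟨κ, hκ, Prod.fst ⁻¹' U, continuous_fst.continuousAt.preimage_mem_nhds hU, ?_⟩
    filter_upwards [hev] with t ht x hx γ hγ
    exact ht x.1 hx γ hγ
  · obtain ⟨L, U, hU, hev⟩ := hl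
    refine ⟨L, Prod.fst ⁻¹' U, continuous_fst.continuousAt.preimage_mem_nhds hU, ?_⟩
    filter_upwards [hev] with t ht x hx γ hγ
    exact ht x.1 hx γ hγ
  · intro κ hκ
    refine ⟨univ, univ_mem, Eventually.of_forall fun t x _ γ _ => ?_⟩
    show |f t (x + γ • ((0, ν₀) : S × V)).1 - f t x.1| ≤ κ * |γ|
    rw [fst_dir, smul_zero, add_zero, sub_self, abs_zero]
    positivity

/-- The imaginary part of a plate. -/
theorem be_dir
    (hν : ContinuousWithinAt (fun p : T × (S × V) => ν p.1 p.2.1) (s ×ˢ univ) (t₀, x₀))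
    (hν0 : ν t₀ x₀.1 = ν₀) (hν1 : ‖ν₀‖ = 1) {L : ℝ}
    (H : ∃ U ∈ 𝓝 x₀.1, ∀ᶠ t in 𝓝[s] t₀, ∀ y ∈ U, ‖ν t y‖ = 1 ∧ ∀ γ : ℝ, 0 ≤ γ →
      y + γ • α ∈ U → ‖C t (y + γ • α) - C t y‖ ≤ L * γ ∧ ν t (y + γ • α) = ν t y) :
    DirLip s (fun t (x : S × V) => inner ℝ (x.2 - C t x.1) (ν t x.1)) t₀ x₀ (α, ω) ∧
    DirLip s (fun t (x : S × V) => inner ℝ (x.2 - C t x.1) (ν t x.1)) t₀ x₀ (0, ν₀) ∧
    Grows s (fun t (x : S × V) => inner ℝ (x.2 - C t x.1) (ν t x.1)) t₀ x₀ (0, ν₀) := by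
  obtain ⟨U, hU, hev⟩ := H
  have hU' : (Prod.fst ⁻¹' U : Set (S × V)) ∈ 𝓝 x₀ :=
    continuous_fst.continuousAt.preimage_mem_nhds hU
  have hb : ∀ (t : T) (x : S × V) (γ : ℝ),
      inner ℝ ((x + γ • ((0, ν₀) : S × V)).2 - C t (x + γ • ((0, ν₀) : S × V)).1)
        (ν t (x + γ • ((0, ν₀) : S × V)).1) - inner ℝ (x.2 - C t x.1) (ν t x.1) =
      γ * inner ℝ ν₀ (ν t x.1) := by
    intro t x γ
    rw [fst_dir, snd_dir, smul_zero, add_zero, ← inner_sub_left, ← real_inner_smul_left]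
    congr 1
    abel
  refine ⟨?_, ?_, ?_⟩
  · refine dirLip_of_pos (L := ‖ω‖ + |L|) ⟨Prod.fst ⁻¹' U, hU', ?_⟩
    filter_upwards [hev] with t e1 x hx γ hγ hxγ
    obtain ⟨d1, d2⟩ := (e1 x.1 hx).2 γ hγ hxγ
    have hn := (e1 x.1 hx).1
    have e : inner ℝ ((x + γ • ((α, ω) : S × V)).2 - C t (x + γ • ((α, ω) : S × V)).1)
        (ν t (x + γ • ((α, ω) : S × V)).1) - inner ℝ (x.2 - C t x.1) (ν t x.1) =
        inner ℝ (γ • ω - (C t (x.1 + γ • α) - C t x.1)) (ν t x.1) := by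
      rw [fst_dir, snd_dir, d2, ← inner_sub_left]
      congr 1
      abel
    rw [e]
    refine (abs_real_inner_le_norm _ _).trans ?_
    rw [hn, mul_one]
    refine (norm_sub_le _ _).trans ?_
    rw [norm_smul, Real.norm_eq_abs, abs_of_nonneg hγ]
    have := mul_le_mul_of_nonneg_right (le_abs_self L) hγ
    linarith
  · refine ⟨1, Prod.fst ⁻¹' U, hU', ?_⟩
    filter_upwards [hev] with t e1 x hx γ hxγ
    rw [hb, abs_mul, one_mul]
    have h1 := abs_real_inner_le_norm ν₀ (ν t x.1)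
    rw [hν1, (e1 x.1 hx).1, mul_one] at h1
    exact mul_le_of_le_one_right (abs_nonneg _) h1
  · have h1 : ContinuousWithinAt (fun p : T × (S × V) => (inner ℝ ν₀ (ν p.1 p.2.1) : ℝ))
        (s ×ˢ univ) (t₀, x₀) := continuousWithinAt_const.inner (𝕜 := ℝ) hν
    have h2 : (1 / 2 : ℝ) < inner ℝ ν₀ (ν t₀ x₀.1) := by
      rw [hν0, real_inner_self_eq_norm_sq, hν1]; norm_num
    obtain ⟨W, hW, hevW⟩ := ev_prod (Q := fun t (x : S × V) => (1 / 2 : ℝ) <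
      inner ℝ ν₀ (ν t x.1)) (h1.eventually (lt_mem_nhds h2))
    refine grows_of_pos (κ := 1 / 2) (by norm_num) ⟨W, hW, ?_⟩
    filter_upwards [hevW] with t e1 x hx γ hγ hxγ
    rw [hb, mul_comm]
    exact mul_le_mul_of_nonneg_left (e1 x hx).le hγ

end Vale.Agent.P268.T.Z293
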