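import Vale.Agent.P268.T.H293.ZipDef
import Vale.Agent.P268.T.H293.TpGrow

/-!
# P268, topological half: ZIP families, facts at the zeros
-/

set_option linter.unusedSectionVars false

namespace Vale.Agent.P268.T.Z293

open Set Filter Topology Metric

variable {T P V A : Type*} [TopologicalSpace T] [NormedAddCommGroup P] [NormedSpace ℝ P]
  [NormedAddCommGroup V] [InnerProductSpace ℝ V] [DecidableEq A] [Fintype A]
  {s : Set T} {e : V} {ε R M : ℝ} {j k : A} {b ν : T → A → P → V} {G : T → ℝ × P → ℝ}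

theorem zr_c01_nonneg (t : ℝ) : 0 ≤ c01 t := le_max_left _ _

theorem zr_c01_le (t : ℝ) : c01 t ≤ 1 := max_le zero_le_one (min_le_right _ _)

theorem zr_c01_id {t : ℝ} (h0 : 0 ≤ t) (h1 : t ≤ 1) : c01 t = t := by
  rw [c01, min_eq_left h1, max_eq_right h0]

theorem zr_c01_zero {t : ℝ} (h0 : t ≤ 0) : c01 t = 0 := by
  rw [c01]; exact max_eq_left ((min_le_left _ _).trans h0)

theorem zr_c01_one {t : ℝ} (h0 : 1 ≤ t) : c01 t = 1 := by
  rw [c01, min_eq_right h0]; exact max_eq_right zero_le_one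

theorem zr_c01_lip (t t' : ℝ) : |c01 t - c01 t'| ≤ |t - t'| := by
  unfold c01
  refine (abs_max_sub_max_le_max _ _ _ _).trans (max_le (by simp) ?_)
  refine (abs_min_sub_min_le_max _ _ _ _).trans (max_le le_rfl (by simp))

/-- Centre in the chart. -/
noncomputable def zC (j k : A) (b : T → A → P → V) (G : T → ℝ × P → ℝ) (τ : T) (i : A)
    (y : ℝ × P) : V := ‖y‖ • zcen j k (b τ) (c01 (G τ y + 1)) i (kap y)

theorem zcen_k (b : A → P → V) (θ : ℝ) (x : P) :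
    zcen j k b θ k x = b k x + θ • (b j x - b k x) := if_pos rfl

theorem zcen_ne (b : A → P → V) (θ : ℝ) {i : A} (hi : i ≠ k) (x : P) :
    zcen j k b θ i x = b i x := if_neg hi

theorem zr_cen_zero (b : A → P → V) (i : A) (x : P) : zcen j k b 0 i x = b i x := by
  by_cases hi : i = k
  · subst hi; rw [zcen_k, zero_smul, add_zero]
  · exact zcen_ne b 0 hi x

theorem zr_norm_cen (h : ZFam s e ε R M j k b ν G) {τ : T} (hτ : τ ∈ s) (i : A) {x : P}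
    (hx : x ∈ closedBall (0 : P) 1) {θ : ℝ} (h0 : 0 ≤ θ) (h1 : θ ≤ 1) :
    ‖zcen j k (b τ) θ i x‖ + 2 * ε < R := by
  by_cases hi : i = k
  · subst hi
    rw [zcen_k]
    have e1 : b τ i x + θ • (b τ j x - b τ i x) = (1 - θ) • b τ i x + θ • b τ j x := by
      rw [smul_sub, sub_smul, one_smul]; abel
    have a1 := (h.adm τ hτ).hb i x hx
    have a2 := (h.adm τ hτ).hb j x hx
    have e2 : ‖(1 - θ) • b τ i x + θ • b τ j x‖ ≤ (1 - θ) * ‖b τ i x‖ + θ * ‖b τ j x‖ := by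
      refine (norm_add_le _ _).trans ?_
      rw [norm_smul, norm_smul, Real.norm_eq_abs, Real.norm_eq_abs, abs_of_nonneg h0,
        abs_of_nonneg (sub_nonneg.mpr h1)]
    rw [e1]
    rcases h0.eq_or_lt with h2 | h2
    · rw [← h2] at e2 ⊢
      linarith
    · have a3 : θ * ‖b τ j x‖ < θ * (R - 2 * ε) := mul_lt_mul_of_pos_left (by linarith) h2
      have a4 : (1 - θ) * ‖b τ i x‖ ≤ (1 - θ) * (R - 2 * ε) :=
        mul_le_mul_of_nonneg_left (by linarith) (sub_nonneg.mpr h1)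
      have : (1 - θ) * (R - 2 * ε) + θ * (R - 2 * ε) = R - 2 * ε := by ring
      linarith
  · rw [zcen_ne _ _ hi]
    exact (h.adm τ hτ).hb i x hx

theorem zr_norm_C (h : ZFam s e ε R M j k b ν G) {τ : T} (hτ : τ ∈ s) (i : A) {y : ℝ × P}
    (hy : y ≠ 0) : ‖zC j k b G τ i y‖ + 2 * ε * ‖y‖ < R * ‖y‖ := by
  have hg : 0 < ‖y‖ := norm_pos_iff.mpr hy
  have h1 := zr_norm_cen h hτ i (kap_mem y) (zr_c01_nonneg (G τ y + 1)) (zr_c01_le _)
  rw [zC, norm_smul, norm_norm]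
  have := mul_lt_mul_of_pos_left h1 hg
  linarith

/-- Two different sheets are nearly active at the same point only if they are `j` and `k`, on the
ramp. -/
theorem zr_pair (h : ZFam s e ε R M j k b ν G) {τ : T} (hτ : τ ∈ s) {x : (ℝ × P) × V}
    (hx : x.1 ≠ 0) {i i' : A} (hii : i ≠ i')
    (h1 : ‖x.2 - zC j k b G τ i x.1‖ < 2 * ε * ‖x.1‖)
    (h2 : ‖x.2 - zC j k b G τ i' x.1‖ < 2 * ε * ‖x.1‖) :
    -1 < G τ x.1 ∧ ((i = j ∧ i' = k) ∨ (i = k ∧ i' = j)) := by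
  have hg : 0 < ‖x.1‖ := norm_pos_iff.mpr hx
  have hA := h.adm τ hτ
  set θ := c01 (G τ x.1 + 1) with hθ
  have hθ0 : 0 ≤ θ := zr_c01_nonneg _
  have hθ1 : θ ≤ 1 := zr_c01_le _
  have key : ‖zcen j k (b τ) θ i (kap x.1) - zcen j k (b τ) θ i' (kap x.1)‖ < 4 * ε := by
    by_contra hne
    have h3 := not_lt.mp hne
    have h4 : ‖x.1‖ * ‖zcen j k (b τ) θ i (kap x.1) - zcen j k (b τ) θ i' (kap x.1)‖ =
        ‖(x.2 - zC j k b G τ i' x.1) - (x.2 - zC j k b G τ i x.1)‖ := by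
      have : (x.2 - zC j k b G τ i' x.1) - (x.2 - zC j k b G τ i x.1) =
          ‖x.1‖ • (zcen j k (b τ) θ i (kap x.1) - zcen j k (b τ) θ i' (kap x.1)) := by
        rw [zC, zC, smul_sub]; abel
      rw [this, norm_smul, norm_norm]
    have h5 := norm_sub_le (x.2 - zC j k b G τ i' x.1) (x.2 - zC j k b G τ i x.1)
    rw [← h4] at h5
    have h6 := mul_le_mul_of_nonneg_left h3 hg.le
    linarith
  by_cases hG : -1 < G τ x.1
  · refine ⟨hG, ?_⟩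
    have hp := (h.par τ hτ x.1 hx hG).2.2
    by_cases hi : i = k
    · right
      refine ⟨hi, ?_⟩
      by_contra hj
      have hi' : i' ≠ k := fun h3 => hii (hi.trans h3.symm)
      subst hi
      rw [zcen_k, zcen_ne _ _ hi', norm_sub_rev] at key
      have := hp i' hj hi' θ ⟨hθ0, hθ1⟩
      linarith
    · by_cases hi' : i' = k
      · left
        refine ⟨?_, hi'⟩
        by_contra hj
        subst hi'
        rw [zcen_k, zcen_ne _ _ hi] at key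
        have := hp i hj hi θ ⟨hθ0, hθ1⟩
        linarith
      · exfalso
        rw [zcen_ne _ _ hi, zcen_ne _ _ hi'] at key
        have := hA.hd i i' hii _ (kap_mem x.1)
        linarith
  · exfalso
    have hθz : θ = 0 := zr_c01_zero (by linarith [not_lt.mp hG])
    rw [hθz, zr_cen_zero, zr_cen_zero] at key
    have := hA.hd i i' hii _ (kap_mem x.1)
    linarith

/-- Facts about an active sheet at a point of real part zero. -/
theorem zr_act (h : ZFam s e ε R M j k b ν G) {τ₀ : T} (hτ₀ : τ₀ ∈ s) {x₀ : (ℝ × P) × V}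
    (hs : x₀.1 ≠ 0) (h0 : gre (zpl e ε R M j k b ν G).rho τ₀ x₀ = 0) {i : A}
    (ha : (zpl e ε R M j k b ν G).rho τ₀ (some i) x₀ = 0) :
    ‖x₀.1.2‖ ≤ x₀.1.1 ∧ 0 < M * (x₀.1.1 - ‖x₀.1.2‖ / 2) ∧
      ‖x₀.2 - zC j k b G τ₀ i x₀.1‖ = ε * ‖x₀.1‖ ∧ ‖x₀.2‖ < R * ‖x₀.1‖ := by
  have hg : 0 < ‖x₀.1‖ := norm_pos_iff.mpr hs
  have hA0 := h.adm τ₀ hτ₀
  have hε := hA0.hε
  have hR0 : 0 < R := by linarith [hA0.hε, hA0.hR]
  have hM0 : 0 < M := by linarith [hA0.hM]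
  have h1 : 0 ≤ ε * ‖x₀.1‖ - ‖x₀.2 - zC j k b G τ₀ i x₀.1‖ := ha.ge.trans (min_le_left _ _)
  have h2 : 0 ≤ M * (x₀.1.1 - ‖x₀.1.2‖ / 2) := ha.ge.trans (min_le_right _ _)
  have h3 : 0 ≤ x₀.1.1 - ‖x₀.1.2‖ / 2 := nonneg_of_mul_nonneg_right h2 hM0
  have h4 : ‖x₀.2‖ < R * ‖x₀.1‖ := by
    have h5 : ‖x₀.2‖ ≤ ‖x₀.2 - zC j k b G τ₀ i x₀.1‖ + ‖zC j k b G τ₀ i x₀.1‖ := by
      have := norm_add_le (x₀.2 - zC j k b G τ₀ i x₀.1) (zC j k b G τ₀ i x₀.1)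
      rwa [sub_add_cancel] at this
    have h6 := zr_norm_C h hτ₀ i hs
    have h7 := mul_pos hε hg
    linarith
  have h5 : 0 < R * ‖x₀.1‖ - ‖x₀.2‖ := by linarith
  have h6 : (zpl e ε R M j k b ν G).rho τ₀ none x₀ ≤ 0 := by
    have := gre_ge (rho := (zpl e ε R M j k b ν G).rho) τ₀ none x₀
    rwa [h0] at this
  have h7 : M * (‖x₀.1.2‖ - |x₀.1.1|) ≤ 0 := by
    rcases min_le_iff.mp h6 with h8 | h8
    · exact absurd h5 (not_lt.mpr h8)
    · exact h8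
  have h8 : ‖x₀.1.2‖ ≤ |x₀.1.1| := by
    by_contra h9
    have := mul_pos hM0 (sub_pos.mpr (not_le.mp h9))
    linarith
  have hu0 : 0 ≤ x₀.1.1 := by linarith [norm_nonneg x₀.1.2]
  rw [abs_of_nonneg hu0] at h8
  have hg2 : ‖x₀.1‖ = x₀.1.1 := by
    rw [norm_base, abs_of_nonneg hu0, max_eq_left h8]
  have h9 : 0 < M * (x₀.1.1 - ‖x₀.1.2‖ / 2) := by
    refine mul_pos hM0 ?_
    rw [hg2] at hg
    linarith
  refine ⟨h8, h9, ?_, h4⟩
  rcases min_choice (ε * ‖x₀.1‖ - ‖x₀.2 - zC j k b G τ₀ i x₀.1‖)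
    (M * (x₀.1.1 - ‖x₀.1.2‖ / 2)) with h10 | h10
  · have : ε * ‖x₀.1‖ - ‖x₀.2 - zC j k b G τ₀ i x₀.1‖ = 0 := h10.symm.trans ha
    linarith
  · have h11 : M * (x₀.1.1 - ‖x₀.1.2‖ / 2) = 0 := h10.symm.trans ha
    linarith

theorem zr_none (h : ZFam s e ε R M j k b ν G) {τ₀ : T} (hτ₀ : τ₀ ∈ s) {x₀ : (ℝ × P) × V}
    (hs : x₀.1 ≠ 0) (ha : (zpl e ε R M j k b ν G).rho τ₀ none x₀ = 0) :
    |x₀.1.1| < 2 * ‖x₀.1.2‖ ∧ x₀.1.2 ≠ 0 := by
  have hg : 0 < ‖x₀.1‖ := norm_pos_iff.mpr hs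
  have hA0 := h.adm τ₀ hτ₀
  have hM0 : 0 < M := by linarith [hA0.hM, hA0.hε, hA0.hR]
  have h2 : 0 ≤ M * (‖x₀.1.2‖ - |x₀.1.1|) := ha.ge.trans (min_le_right _ _)
  refine collar hs hM0 (η := ε) (by linarith [hA0.hM, hA0.hR, hA0.hε]) ?_
  have := mul_pos hA0.hε hg
  linarith

/-- The active sheets have the same normal. -/
theorem zr_nu (h : ZFam s e ε R M j k b ν G) {τ₀ : T} (hτ₀ : τ₀ ∈ s) {x₀ : (ℝ × P) × V}
    (hs : x₀.1 ≠ 0) (h0 : gre (zpl e ε R M j k b ν G).rho τ₀ x₀ = 0) :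
    ∀ a a', (zpl e ε R M j k b ν G).rho τ₀ a x₀ = 0 →
      (zpl e ε R M j k b ν G).rho τ₀ a' x₀ = 0 →
      (zpl e ε R M j k b ν G).ν τ₀ a x₀ = (zpl e ε R M j k b ν G).ν τ₀ a' x₀ := by
  have hg : 0 < ‖x₀.1‖ := norm_pos_iff.mpr hs
  have F2' : (zpl e ε R M j k b ν G).rho τ₀ none x₀ = 0 → ∀ i,
      (zpl e ε R M j k b ν G).ν τ₀ (some i) x₀ = e := by
    intro ha i
    obtain ⟨h1, h2⟩ := zr_none h hτ₀ hs ha
    exact h.fam.nh τ₀ hτ₀ i _ (norm_kap_of_le h1.le h2)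
  rintro (_ | i) (_ | i') ha ha'
  · rfl
  · exact (F2' ha i').symm
  · exact F2' ha' i
  · by_cases hii : i = i'
    · rw [hii]
    · have hε := (h.adm τ₀ hτ₀).hε
      have k1 := (zr_act h hτ₀ hs h0 ha).2.2.1
      have k2 := (zr_act h hτ₀ hs h0 ha').2.2.1
      have k3 := mul_pos hε hg
      obtain ⟨hG, h3⟩ := zr_pair h hτ₀ hs hii (by linarith) (by linarith)
      have hn := (h.par τ₀ hτ₀ x₀.1 hs hG).1
      rcases h3 with ⟨rfl, rfl⟩ | ⟨rfl, rfl⟩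
      · exact hn.symm
      · exact hn

end Vale.Agent.P268.T.Z293
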