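import Vale.Agent.P268.T.H293.ZipReg

/-!
# P268, topological half: ZIP families, zeros which are not crotch points
-/

set_option linter.unusedSectionVars false

namespace Vale.Agent.P268.T.Z293

open Set Filter Topology Metric

variable {T P V A : Type*} [TopologicalSpace T] [NormedAddCommGroup P] [NormedSpace ℝ P]
  [NormedAddCommGroup V] [InnerProductSpace ℝ V] [DecidableEq A] [Fintype A]
  {s : Set T} {e : V} {ε R M : ℝ} {j k : A} {b ν : T → A → P → V} {G : T → ℝ × P → ℝ}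

theorem zcen_sub (h : ZFam s e ε R M j k b ν G) {τ : T} (hτ : τ ∈ s) (i : A) {x : P}
    (hx : x ∈ closedBall (0 : P) 1) (θ θ' : ℝ) :
    ‖zcen j k (b τ) θ' i x - zcen j k (b τ) θ i x‖ ≤ |θ' - θ| * (2 * R) := by
  have hε := (h.adm τ hτ).hε
  have h1 := (h.adm τ hτ).hb j x hx
  have h2 := (h.adm τ hτ).hb k x hx
  have h3 := norm_nonneg (b τ j x)
  by_cases hi : i = k
  · subst hi
    rw [zcen_k, zcen_k]
    have e1 : b τ i x + θ' • (b τ j x - b τ i x) - (b τ i x + θ • (b τ j x - b τ i x)) =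
        (θ' - θ) • (b τ j x - b τ i x) := by rw [sub_smul]; abel
    rw [e1, norm_smul, Real.norm_eq_abs]
    refine mul_le_mul_of_nonneg_left ((norm_sub_le _ _).trans ?_) (abs_nonneg _)
    linarith
  · rw [zcen_ne _ _ hi, zcen_ne _ _ hi, sub_self, norm_zero]
    have : 0 ≤ R := by linarith
    positivity

theorem zC_incr (h : ZFam s e ε R M j k b ν G) {τ : T} (hτ : τ ∈ s) (i : A) {y y' : ℝ × P}
    (hk : kap y' = kap y) :
    ‖zC j k b G τ i y' - zC j k b G τ i y‖ ≤ |‖y'‖ - ‖y‖| * R + ‖y‖ * (|G τ y' - G τ y| * (2 * R)) := by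
  set θ := c01 (G τ y + 1) with hθ
  set θ' := c01 (G τ y' + 1) with hθ'
  have e1 : zC j k b G τ i y' - zC j k b G τ i y =
      (‖y'‖ - ‖y‖) • zcen j k (b τ) θ' i (kap y) +
        ‖y‖ • (zcen j k (b τ) θ' i (kap y) - zcen j k (b τ) θ i (kap y)) := by
    rw [zC, zC, hk, sub_smul, smul_sub]; abel
  rw [e1]
  refine (norm_add_le _ _).trans ?_
  rw [norm_smul, norm_smul, Real.norm_eq_abs, norm_norm]
  have hε := (h.adm τ hτ).hε
  have h1 := zr_norm_cen h hτ i (kap_mem y) (zr_c01_nonneg (G τ y' + 1)) (zr_c01_le _)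
  have h2 := zcen_sub h hτ i (kap_mem y) θ θ'
  have h3 : |θ' - θ| ≤ |G τ y' - G τ y| := by
    refine (zr_c01_lip _ _).trans ?_
    rw [add_sub_add_right_eq_sub]
  have hR : 0 ≤ 2 * R := by
    have := norm_nonneg (zcen j k (b τ) (c01 (G τ y' + 1)) i (kap y))
    linarith
  refine add_le_add (mul_le_mul_of_nonneg_left (by linarith) (abs_nonneg _)) ?_
  refine mul_le_mul_of_nonneg_left (h2.trans ?_) (norm_nonneg _)
  exact mul_le_mul_of_nonneg_right h3 hR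

theorem zr_norm_incr (y α : ℝ × P) (γ : ℝ) : |‖y + γ • α‖ - ‖y‖| ≤ |γ| * ‖α‖ := by
  refine (abs_norm_sub_norm_le _ _).trans ?_
  rw [add_sub_cancel_left, norm_smul, Real.norm_eq_abs]

/-- Near the front of the slab, along `(1, 0)`. -/
theorem zr_wall (h : ZFam s e ε R M j k b ν G) {τ₀ : T} (hτ₀ : τ₀ ∈ s) {y₀ : ℝ × P}
    (hs : y₀ ≠ 0) (hw : |y₀.1| = ‖y₀.2‖) :
    ∃ L : ℝ, 0 ≤ L ∧ ∃ U ∈ 𝓝 y₀, ∀ᶠ τ in 𝓝[s] τ₀, ∀ y ∈ U, ∀ γ : ℝ,
      y + γ • ((1, 0) : ℝ × P) ∈ U → kap (y + γ • ((1, 0) : ℝ × P)) = kap y ∧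
      ∀ i, ‖zC j k b G τ i (y + γ • ((1, 0) : ℝ × P)) - zC j k b G τ i y‖ ≤ L * |γ| := by
  obtain ⟨L, U, hU, hev⟩ := h.slab τ₀ hτ₀ y₀ hs hw
  have hp : 0 < ‖y₀.2‖ := by
    have hg : 0 < ‖y₀‖ := norm_pos_iff.mpr hs
    rw [norm_base, hw, max_self] at hg
    exact hg
  let W : Set (ℝ × P) := {y | |y.1| < 2 * ‖y.2‖ ∧ ‖y‖ < ‖y₀‖ + 1}
  have hW : W ∈ 𝓝 y₀ := by
    refine IsOpen.mem_nhds ?_ ⟨by rw [hw]; linarith, by linarith⟩
    have c1 : Continuous fun y : ℝ × P => |y.1| := by fun_prop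
    have c2 : Continuous fun y : ℝ × P => 2 * ‖y.2‖ := by fun_prop
    have c3 : Continuous fun y : ℝ × P => ‖y‖ := continuous_norm
    exact (isOpen_lt c1 c2).inter (isOpen_lt c3 continuous_const)
  have hR0 : 0 ≤ R := by linarith [(h.adm τ₀ hτ₀).hε, (h.adm τ₀ hτ₀).hR]
  refine ⟨R + (‖y₀‖ + 1) * (|L| * (2 * R)), by positivity, U ∩ W, inter_mem hU hW, ?_⟩
  filter_upwards [hev, self_mem_nhdsWithin] with τ e1 hτ y hy γ hyγ
  have hk : kap (y + γ • ((1, 0) : ℝ × P)) = kap y := by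
    have h1 : (y + γ • ((1, 0) : ℝ × P)).2 = y.2 := by simp
    rw [kap_of_le hyγ.2.1.le, kap_of_le hy.2.1.le, h1]
  refine ⟨hk, fun i => (zC_incr h hτ i hk).trans ?_⟩
  have h2 := zr_norm_incr y ((1, 0) : ℝ × P) γ
  have h3 : ‖((1, 0) : ℝ × P)‖ = 1 := by simp [Prod.norm_def]
  rw [h3, mul_one] at h2
  have h4 : |G τ (y + γ • ((1, 0) : ℝ × P)) - G τ y| ≤ |L| * |γ| :=
    (e1 y hy.1 γ hyγ.1).trans (mul_le_mul_of_nonneg_right (le_abs_self L) (abs_nonneg γ))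
  have h5 := mul_le_mul_of_nonneg_right h2 hR0
  have h6 : ‖y‖ * (|G τ (y + γ • ((1, 0) : ℝ × P)) - G τ y| * (2 * R)) ≤
      (‖y₀‖ + 1) * ((|L| * |γ|) * (2 * R)) := by
    refine mul_le_mul hy.2.2.le (mul_le_mul_of_nonneg_right h4 (by positivity)) ?_ (by positivity)
    positivity
  calc _ ≤ |γ| * R + (‖y₀‖ + 1) * ((|L| * |γ|) * (2 * R)) := add_le_add h5 h6
    _ = _ := by ring

theorem tpdir_of {C : T → ℝ × P → V} {r : T → ℝ × P → ℝ} {t₀ : T} {s₀ : ℝ × P} {w₀ : V}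
    {α : ℝ × P} {ω : V} (hw : w₀ ≠ 0) (hω : inner ℝ w₀ ω ≤ -‖w₀‖)
    (H : ∃ U ∈ 𝓝 s₀, ∀ᶠ t in 𝓝[s] t₀, ∀ y ∈ U, ∀ γ : ℝ, 0 ≤ γ → y + γ • α ∈ U →
      ‖C t (y + γ • α) - C t y‖ ≤ 1 / 8 * γ ∧ |r t (y + γ • α) - r t y| ≤ 1 / 8 * γ) :
    TpDir s C r t₀ s₀ w₀ α ω := by
  obtain ⟨U, hU, hev⟩ := H
  have hwp : 0 < ‖w₀‖ := norm_pos_iff.mpr hw
  refine ⟨1 / 2, 1 / 8, by norm_num, U, hU, ?_⟩
  filter_upwards [hev] with t e1 y hy γ hγ hyγ
  obtain ⟨d1, d2⟩ := e1 y hy γ hγ hyγ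
  refine ⟨?_, d1, d2⟩
  have h1 : -(1 / 8 * γ) ≤ inner ℝ w₀ (C t (y + γ • α) - C t y) / ‖w₀‖ := by
    rw [le_div_iff₀ hwp]
    have h2 := (abs_le.mp (abs_real_inner_le_norm w₀ (C t (y + γ • α) - C t y))).1
    have h3 := mul_le_mul_of_nonneg_left d1 hwp.le
    linarith
  have h2 : inner ℝ w₀ ω / ‖w₀‖ ≤ -1 := by
    rw [div_le_iff₀ hwp]; linarith
  have h3 := mul_le_mul_of_nonneg_left h2 hγ
  have h4 := (abs_le.mp d2).1
  linarith

theorem dirLip_sigma (M : ℝ) {t₀ : T} {y₀ : ℝ × P} (α : ℝ × P) :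
    DirLip s (fun _ (y : ℝ × P) => M * (‖y.2‖ - |y.1|)) t₀ y₀ α := by
  refine ⟨|M| * (2 * ‖α‖), univ, univ_mem, Eventually.of_forall fun t y _ γ _ => ?_⟩
  have e1 : M * (‖(y + γ • α).2‖ - |(y + γ • α).1|) - M * (‖y.2‖ - |y.1|) =
      M * ((‖(y + γ • α).2‖ - ‖y.2‖) - (|(y + γ • α).1| - |y.1|)) := by ring
  show |M * (‖(y + γ • α).2‖ - |(y + γ • α).1|) - M * (‖y.2‖ - |y.1|)| ≤ _
  rw [e1, abs_mul]
  have h1 : |‖(y + γ • α).2‖ - ‖y.2‖| ≤ |γ| * ‖α‖ := by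
    refine (abs_norm_sub_norm_le _ _).trans ?_
    have : (y + γ • α).2 - y.2 = γ • α.2 := by simp
    rw [this, norm_smul, Real.norm_eq_abs]
    exact mul_le_mul_of_nonneg_left (norm_snd_le α) (abs_nonneg _)
  have h2 : |(|(y + γ • α).1| - |y.1|)| ≤ |γ| * ‖α‖ := by
    refine (abs_abs_sub_abs_le _ _).trans ?_
    have : (y + γ • α).1 - y.1 = γ * α.1 := by simp
    rw [this, abs_mul]
    exact mul_le_mul_of_nonneg_left (norm_fst_le α) (abs_nonneg _)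
  have h3 := (abs_sub (‖(y + γ • α).2‖ - ‖y.2‖) (|(y + γ • α).1| - |y.1|)).trans
    (add_le_add h1 h2)
  calc _ ≤ |M| * (|γ| * ‖α‖ + |γ| * ‖α‖) := mul_le_mul_of_nonneg_left h3 (abs_nonneg _)
    _ = _ := by ring

/-- A small base direction `(c, 0)`, used only at the front of the slab. -/
theorem zr_dir (h : ZFam s e ε R M j k b ν G) {τ₀ : T} (hτ₀ : τ₀ ∈ s) {y₀ : ℝ × P}
    (hs : y₀ ≠ 0) :
    ∃ c : ℝ, (∃ U ∈ 𝓝 y₀, ∀ᶠ τ in 𝓝[s] τ₀, ∀ y ∈ U, ∀ γ : ℝ, 0 ≤ γ →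
      y + γ • ((c, 0) : ℝ × P) ∈ U → kap (y + γ • ((c, 0) : ℝ × P)) = kap y ∧
      (∀ i, ‖zC j k b G τ i (y + γ • ((c, 0) : ℝ × P)) - zC j k b G τ i y‖ ≤ 1 / 8 * γ) ∧
      (R + ε) * |‖y + γ • ((c, 0) : ℝ × P)‖ - ‖y‖| ≤ 1 / 8 * γ) ∧
      (|y₀.1| = ‖y₀.2‖ → Grows s (fun _ (y : ℝ × P) => M * (‖y.2‖ - |y.1|)) τ₀ y₀ (c, 0)) := by
  have hA0 := h.adm τ₀ hτ₀
  have hε := hA0.hε
  have hR0 : 0 < R := by linarith [hA0.hε, hA0.hR]
  have hM0 : 0 < M := by linarith [hA0.hM]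
  by_cases hw : |y₀.1| = ‖y₀.2‖
  · obtain ⟨L, hL, U, hU, hev⟩ := zr_wall h hτ₀ hs hw
    have hg : 0 < ‖y₀‖ := norm_pos_iff.mpr hs
    have hp0 : 0 < ‖y₀.2‖ := by
      rw [norm_base, hw, max_self] at hg
      exact hg
    obtain ⟨sg, hsg, hsg1, hsg2⟩ : ∃ sg : ℝ, sg * sg = 1 ∧ |sg| = 1 ∧ 0 < sg * y₀.1 := by
      rcases lt_or_ge 0 y₀.1 with h1 | h1
      · exact ⟨1, by norm_num, by norm_num, by simpa using h1⟩
      · refine ⟨-1, by norm_num, by norm_num, ?_⟩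
        have : y₀.1 ≠ 0 := by
          intro h2
          rw [h2, abs_zero] at hw
          linarith
        have := lt_of_le_of_ne h1 this
        linarith
    set δ : ℝ := 1 / (8 * (L + R + ε)) with hδ
    have hδ0 : 0 < δ := by positivity
    have hδ1 : δ * (L + R + ε) = 1 / 8 := by rw [hδ]; field_simp
    have hc : |-(sg * δ)| = δ := by rw [abs_neg, abs_mul, hsg1, one_mul, abs_of_pos hδ0]
    have hrew : ∀ (y : ℝ × P) (γ : ℝ), y + γ • ((-(sg * δ), 0) : ℝ × P) =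
        y + (γ * -(sg * δ)) • ((1, 0) : ℝ × P) := by
      intro y γ
      ext <;> simp
    have hγc : ∀ γ : ℝ, 0 ≤ γ → |γ * -(sg * δ)| = γ * δ := fun γ hγ => by
      rw [abs_mul, hc, abs_of_nonneg hγ]
    refine ⟨-(sg * δ), ⟨U, hU, ?_⟩, fun _ => ?_⟩
    · filter_upwards [hev] with τ e1 y hy γ hγ hyγ
      rw [hrew] at hyγ ⊢
      obtain ⟨d1, d2⟩ := e1 y hy _ hyγ
      refine ⟨d1, fun i => (d2 i).trans ?_, ?_⟩
      · rw [hγc γ hγ]
        have : L * δ ≤ 1 / 8 := by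
          have h9 : 0 ≤ δ * (R + ε) := by positivity
          linarith
        have := mul_le_mul_of_nonneg_left this hγ
        linarith
      · have h2 := zr_norm_incr y ((1, 0) : ℝ × P) (γ * -(sg * δ))
        have h3 : ‖((1, 0) : ℝ × P)‖ = 1 := by simp [Prod.norm_def]
        rw [h3, mul_one, hγc γ hγ] at h2
        have h4 : (R + ε) * δ ≤ 1 / 8 := by
          have h9 : 0 ≤ δ * L := by positivity
          linarith
        have h5 := mul_le_mul_of_nonneg_left h4 hγ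
        have h6 := mul_le_mul_of_nonneg_left h2 (by positivity : 0 ≤ R + ε)
        linarith
    · let W : Set (ℝ × P) := {y | 0 < sg * y.1}
      have hW : W ∈ 𝓝 y₀ := by
        refine IsOpen.mem_nhds ?_ hsg2
        exact isOpen_lt continuous_const (by fun_prop)
      have habs : ∀ u : ℝ, 0 < sg * u → |u| = sg * u := by
        intro u hu
        have h1 : |sg * u| = sg * u := abs_of_pos hu
        rw [abs_mul, hsg1, one_mul] at h1
        exact h1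
      refine grows_of_pos (κ := M * δ) (by positivity) ⟨W, hW, Eventually.of_forall ?_⟩
      intro τ y hy γ hγ hyγ
      have h1 : (y + γ • ((-(sg * δ), 0) : ℝ × P)).1 = y.1 + γ * -(sg * δ) := by simp
      have h2 : (y + γ • ((-(sg * δ), 0) : ℝ × P)).2 = y.2 := by simp
      have h3 := habs _ hy
      have h4 := habs _ hyγ
      show M * δ * γ ≤ M * (‖(y + γ • ((-(sg * δ), 0) : ℝ × P)).2‖ -
        |(y + γ • ((-(sg * δ), 0) : ℝ × P)).1|) - M * (‖y.2‖ - |y.1|)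
      rw [h4, h3, h2, h1]
      have : sg * (y.1 + γ * -(sg * δ)) = sg * y.1 - γ * δ := by
        have : sg * (γ * -(sg * δ)) = -((sg * sg) * (γ * δ)) := by ring
        rw [mul_add, this, hsg]; ring
      rw [this]
      apply le_of_eq
      ring
  · refine ⟨0, ⟨univ, univ_mem, Eventually.of_forall fun τ y _ γ hγ _ => ?_⟩,
      fun h1 => absurd h1 hw⟩
    have h0 : y + γ • ((0, 0) : ℝ × P) = y := by
      have : ((0, 0) : ℝ × P) = 0 := rfl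
      rw [this, smul_zero, add_zero]
    rw [h0]
    refine ⟨rfl, fun i => ?_, ?_⟩
    · rw [sub_self, norm_zero]; positivity
    · rw [sub_self, abs_zero, mul_zero]; positivity

end Vale.Agent.P268.T.Z293
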