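import Vale.Agent.P268.T.H293.ZipReg2

/-!
# P268, topological half: ZIP families, regularity from a fibre direction
-/

set_option linter.unusedSectionVars false

namespace Vale.Agent.P268.T.Z293

open Set Filter Topology Metric

variable {T P V A : Type*} [TopologicalSpace T] [NormedAddCommGroup P] [NormedSpace ℝ P]
  [NormedAddCommGroup V] [InnerProductSpace ℝ V] [DecidableEq A] [Fintype A]
  {s : Set T} {e : V} {ε R M : ℝ} {j k : A} {b ν : T → A → P → V} {G : T → ℝ × P → ℝ}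

/-- At a zero the imaginary parts of the active sheets vanish. -/
theorem zr_be (hB : (zpl e ε R M j k b ν G).Base s ε (fun x => ‖x.1‖)) (hε : 0 < ε) {τ₀ : T}
    (hτ₀ : τ₀ ∈ s) {x₀ : (ℝ × P) × V} (hs : x₀.1 ≠ 0)
    (hf : (zpl e ε R M j k b ν G).fn ε (fun x => ‖x.1‖) τ₀ x₀ = 0) {a : Option A}
    (ha : (zpl e ε R M j k b ν G).rho τ₀ a x₀ = 0) :
    (zpl e ε R M j k b ν G).be τ₀ a x₀ = 0 := by
  have h2 : gim ε (fun x : (ℝ × P) × V => ‖x.1‖) (zpl e ε R M j k b ν G).rho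
    (zpl e ε R M j k b ν G).be τ₀ x₀ = 0 := congrArg Complex.im hf
  have hN : ‖x₀.1‖ ≠ 0 := norm_ne_zero_iff.mpr hs
  have h3 := mul_pos hε (norm_pos_iff.mpr hs)
  rw [← hB.glueL.im_eq hτ₀ hN (a := a) (by rw [ha]; linarith), h2]

/-- Continuity of the vector from the centre. -/
theorem zr_cw (hB : (zpl e ε R M j k b ν G).Base s ε (fun x => ‖x.1‖)) {τ₀ : T} (hτ₀ : τ₀ ∈ s)
    (x₀ : (ℝ × P) × V) (i : A) :
    ContinuousWithinAt (fun p : T × ((ℝ × P) × V) => p.2.2 - zC j k b G p.1 i p.2.1)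
      (s ×ˢ univ) (τ₀, x₀) :=
  hB.cw (some i) (τ₀, x₀) ⟨hτ₀, mem_univ _⟩

theorem zr_cn (hB : (zpl e ε R M j k b ν G).Base s ε (fun x => ‖x.1‖)) {τ₀ : T} (hτ₀ : τ₀ ∈ s)
    {x₀ : (ℝ × P) × V} (hs : x₀.1 ≠ 0) (i : A) :
    ContinuousWithinAt (fun p : T × ((ℝ × P) × V) => ν p.1 i (kap p.2.1))
      (s ×ˢ univ) (τ₀, x₀) := by
  have hN : ‖x₀.1‖ ≠ 0 := norm_ne_zero_iff.mpr hs
  refine (hB.cn (some i) (τ₀, x₀) ⟨hτ₀, hN⟩).mono_of_mem_nhdsWithin ?_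
  filter_upwards [self_mem_nhdsWithin,
    mem_nhdsWithin_of_mem_nhds (hB.glueL.mem_N hN τ₀)] with p hp hp'
  exact ⟨hp.1, hp'⟩

/-- The piece `tp` of the slab. -/
theorem glf_none {τ₀ : T} {x₀ : (ℝ × P) × V} {α : ℝ × P} {ω ν₀ : V} (hw : x₀.2 ≠ 0)
    (hν : inner ℝ x₀.2 ν₀ = 0) (hω : inner ℝ x₀.2 ω ≤ -‖x₀.2‖)
    (H : ∃ U ∈ 𝓝 x₀.1, ∀ᶠ _ in 𝓝[s] τ₀, ∀ y ∈ U, ∀ γ : ℝ, 0 ≤ γ → y + γ • α ∈ U →
      |R * ‖y + γ • α‖ - R * ‖y‖| ≤ 1 / 8 * γ) :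
    GLF s (fun τ x => (zpl e ε R M j k b ν G).tp τ none x) τ₀ x₀ (α, ω) (0, ν₀) := by
  have hc : ContinuousWithinAt (fun p : T × ((ℝ × P) × V) => p.2.2 -
      (fun (_ : T) (_ : ℝ × P) => (0 : V)) p.1 p.2.1) (s ×ˢ univ) (τ₀, x₀) := by
    have : Continuous fun p : T × ((ℝ × P) × V) => p.2.2 - (0 : V) := by fun_prop
    exact this.continuousWithinAt
  have h1 := tp_glf (s := s) (C := fun (_ : T) (_ : ℝ × P) => (0 : V))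
    (r := fun _ y => R * ‖y‖) (t₀ := τ₀) (x₀ := x₀) (α := α) (ω := ω) (ν₀ := ν₀) hc
    (by rw [sub_zero]; exact hw) (by rw [sub_zero]; exact hν)
    (by
      rw [sub_zero]
      refine tpdir_of hw hω ?_
      obtain ⟨U, hU, hev⟩ := H
      refine ⟨U, hU, hev.mono fun t ht y hy γ hγ hyγ => ⟨?_, ht y hy γ hγ hyγ⟩⟩
      rw [sub_self, norm_zero]
      positivity)
  have e1 : (fun τ x => (zpl e ε R M j k b ν G).tp τ none x) =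
      fun (t : T) (x : (ℝ × P) × V) => R * ‖x.1‖ - ‖x.2 - 0‖ := by
    funext τ x
    show R * ‖x.1‖ - ‖x.2‖ = _
    rw [sub_zero]
  rw [e1]
  exact h1

/-- The imaginary part of the slab. -/
theorem be_none {τ₀ : T} {x₀ : (ℝ × P) × V} {α : ℝ × P} {ω : V} (he : ‖e‖ = 1) :
    DirLip s (fun τ x => (zpl e ε R M j k b ν G).be τ none x) τ₀ x₀ (α, ω) ∧
    DirLip s (fun τ x => (zpl e ε R M j k b ν G).be τ none x) τ₀ x₀ (0, e) ∧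
    Grows s (fun τ x => (zpl e ε R M j k b ν G).be τ none x) τ₀ x₀ (0, e) := by
  have h1 := be_dir (s := s) (C := fun (_ : T) (_ : ℝ × P) => (0 : V)) (ν := fun _ _ => e)
    (t₀ := τ₀) (x₀ := x₀) (α := α) (ω := ω) (ν₀ := e) continuousWithinAt_const rfl he
    (L := 0) ⟨univ, univ_mem, Eventually.of_forall fun t y _ => ⟨he, fun γ hγ _ => ⟨by
      rw [sub_self, norm_zero, zero_mul], rfl⟩⟩⟩
  have e1 : (fun τ x => (zpl e ε R M j k b ν G).be τ none x) =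
      fun (t : T) (x : (ℝ × P) × V) => (inner ℝ (x.2 - 0) e : ℝ) := by
    funext τ x
    show (inner ℝ x.2 e : ℝ) = _
    rw [sub_zero]
  rw [e1]
  exact h1

/-- The piece `tp` of a sheet. -/
theorem glf_some (hB : (zpl e ε R M j k b ν G).Base s ε (fun x => ‖x.1‖)) {τ₀ : T}
    (hτ₀ : τ₀ ∈ s) {x₀ : (ℝ × P) × V} {α : ℝ × P} {ω ν₀ : V} {i : A}
    (hw : x₀.2 - zC j k b G τ₀ i x₀.1 ≠ 0)
    (hν : inner ℝ (x₀.2 - zC j k b G τ₀ i x₀.1) ν₀ = 0)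
    (H : TpDir s (fun τ y => zC j k b G τ i y) (fun _ y => ε * ‖y‖) τ₀ x₀.1
      (x₀.2 - zC j k b G τ₀ i x₀.1) α ω) :
    GLF s (fun τ x => (zpl e ε R M j k b ν G).tp τ (some i) x) τ₀ x₀ (α, ω) (0, ν₀) := by
  have h1 := tp_glf (C := fun τ y => zC j k b G τ i y) (r := fun _ y => ε * ‖y‖)
    (zr_cw hB hτ₀ x₀ i) hw hν H
  exact h1

/-- The imaginary part of a sheet. -/
theorem be_some (h : ZFam s e ε R M j k b ν G)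
    (hB : (zpl e ε R M j k b ν G).Base s ε (fun x => ‖x.1‖)) {τ₀ : T}
    (hτ₀ : τ₀ ∈ s) {x₀ : (ℝ × P) × V} (hs : x₀.1 ≠ 0) {α : ℝ × P} {ω : V} {i : A} {L : ℝ}
    (H : ∃ U ∈ 𝓝 x₀.1, ∀ᶠ τ in 𝓝[s] τ₀, ∀ y ∈ U, ∀ γ : ℝ, 0 ≤ γ → y + γ • α ∈ U →
      ‖zC j k b G τ i (y + γ • α) - zC j k b G τ i y‖ ≤ L * γ ∧
      ν τ i (kap (y + γ • α)) = ν τ i (kap y)) :
    DirLip s (fun τ x => (zpl e ε R M j k b ν G).be τ (some i) x) τ₀ x₀ (α, ω) ∧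
    DirLip s (fun τ x => (zpl e ε R M j k b ν G).be τ (some i) x) τ₀ x₀
      (0, ν τ₀ i (kap x₀.1)) ∧
    Grows s (fun τ x => (zpl e ε R M j k b ν G).be τ (some i) x) τ₀ x₀
      (0, ν τ₀ i (kap x₀.1)) := by
  obtain ⟨U, hU, hev⟩ := H
  have h1 := be_dir (C := fun τ y => zC j k b G τ i y) (ν := fun τ y => ν τ i (kap y))
    (s := s) (t₀ := τ₀) (x₀ := x₀) (α := α) (ω := ω)
    (zr_cn hB hτ₀ hs i) rfl (h.fam.nn τ₀ hτ₀ i _ (kap_mem x₀.1)) (L := L) ⟨U, hU, by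
      filter_upwards [hev, self_mem_nhdsWithin] with τ e1 hτ y hy
      exact ⟨h.fam.nn τ hτ i _ (kap_mem y), e1 y hy⟩⟩
  exact h1

/-- The conditions on the base direction `(c, 0)`. -/
def DirOK (s : Set T) (ε R : ℝ) (j k : A) (b : T → A → P → V) (G : T → ℝ × P → ℝ) (τ₀ : T)
    (y₀ : ℝ × P) (c : ℝ) : Prop :=
  ∃ U ∈ 𝓝 y₀, ∀ᶠ τ in 𝓝[s] τ₀, ∀ y ∈ U, ∀ γ : ℝ, 0 ≤ γ →
    y + γ • ((c, 0) : ℝ × P) ∈ U → kap (y + γ • ((c, 0) : ℝ × P)) = kap y ∧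
    (∀ i, ‖zC j k b G τ i (y + γ • ((c, 0) : ℝ × P)) - zC j k b G τ i y‖ ≤ 1 / 8 * γ) ∧
    (R + ε) * |‖y + γ • ((c, 0) : ℝ × P)‖ - ‖y‖| ≤ 1 / 8 * γ

theorem omega_tn (h : ZFam s e ε R M j k b ν G) {τ₀ : T}
    (hτ₀ : τ₀ ∈ s) {x₀ : (ℝ × P) × V} (hs : x₀.1 ≠ 0) {ω ν₀ : V} {c : ℝ}
    (hc : DirOK s ε R j k b G τ₀ x₀.1 c)
    (hω0 : ‖x₀.2‖ = R * ‖x₀.1‖ → inner ℝ x₀.2 ω ≤ -‖x₀.2‖) (hν : inner ℝ x₀.2 ν₀ = 0)
    (ht : (zpl e ε R M j k b ν G).tp τ₀ none x₀ = 0) :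
    GLF s (fun τ x => (zpl e ε R M j k b ν G).tp τ none x) τ₀ x₀ (((c, 0) : ℝ × P), ω)
      (0, ν₀) := by
  have hg : 0 < ‖x₀.1‖ := norm_pos_iff.mpr hs
  have hA0 := h.adm τ₀ hτ₀
  have hε := hA0.hε
  have hR0 : 0 < R := by linarith [hA0.hε, hA0.hR]
  have hv : ‖x₀.2‖ = R * ‖x₀.1‖ := by
    have : R * ‖x₀.1‖ - ‖x₀.2‖ = 0 := ht
    linarith
  have hv0 : x₀.2 ≠ 0 := by
    intro h1
    rw [h1, norm_zero] at hv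
    have := mul_pos hR0 hg
    linarith
  obtain ⟨U, hU, hev⟩ := hc
  refine glf_none hv0 hν (hω0 hv) ⟨U, hU, ?_⟩
  filter_upwards [hev] with τ e1 y hy γ hγ hyγ
  have h2 := (e1 y hy γ hγ hyγ).2.2
  rw [← mul_sub, abs_mul, abs_of_pos hR0]
  have h3 : 0 ≤ ε * |‖y + γ • ((c, 0) : ℝ × P)‖ - ‖y‖| := by positivity
  linarith

theorem omega_ts (h : ZFam s e ε R M j k b ν G)
    (hB : (zpl e ε R M j k b ν G).Base s ε (fun x => ‖x.1‖)) {τ₀ : T}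
    (hτ₀ : τ₀ ∈ s) {x₀ : (ℝ × P) × V} (hs : x₀.1 ≠ 0) {ω ν₀ : V} {c : ℝ}
    (hc : DirOK s ε R j k b G τ₀ x₀.1 c) {i : A}
    (hw : ‖x₀.2 - zC j k b G τ₀ i x₀.1‖ = ε * ‖x₀.1‖)
    (hω : inner ℝ (x₀.2 - zC j k b G τ₀ i x₀.1) ω ≤ -‖x₀.2 - zC j k b G τ₀ i x₀.1‖)
    (hν : inner ℝ (x₀.2 - zC j k b G τ₀ i x₀.1) ν₀ = 0) :
    GLF s (fun τ x => (zpl e ε R M j k b ν G).tp τ (some i) x) τ₀ x₀
      (((c, 0) : ℝ × P), ω) (0, ν₀) := by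
  have hg : 0 < ‖x₀.1‖ := norm_pos_iff.mpr hs
  have hA0 := h.adm τ₀ hτ₀
  have hε := hA0.hε
  have hR0 : 0 < R := by linarith [hA0.hε, hA0.hR]
  have hw0 : x₀.2 - zC j k b G τ₀ i x₀.1 ≠ 0 := by
    intro h1
    rw [h1, norm_zero] at hw
    have := mul_pos hε hg
    linarith
  obtain ⟨U, hU, hev⟩ := hc
  refine glf_some hB hτ₀ hw0 hν (tpdir_of hw0 hω ⟨U, hU, ?_⟩)
  filter_upwards [hev] with τ e1 y hy γ hγ hyγ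
  obtain ⟨-, h1, h2⟩ := e1 y hy γ hγ hyγ
  refine ⟨h1 i, ?_⟩
  rw [← mul_sub, abs_mul, abs_of_pos hε]
  have h3 : 0 ≤ R * |‖y + γ • ((c, 0) : ℝ × P)‖ - ‖y‖| := by positivity
  linarith

theorem omega_be (h : ZFam s e ε R M j k b ν G)
    (hB : (zpl e ε R M j k b ν G).Base s ε (fun x => ‖x.1‖)) {τ₀ : T}
    (hτ₀ : τ₀ ∈ s) {x₀ : (ℝ × P) × V} (hs : x₀.1 ≠ 0) {ω : V} {c : ℝ}
    (hc : DirOK s ε R j k b G τ₀ x₀.1 c) (a : Option A) :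
    DirLip s (fun τ x => (zpl e ε R M j k b ν G).be τ a x) τ₀ x₀ (((c, 0) : ℝ × P), ω) ∧
    DirLip s (fun τ x => (zpl e ε R M j k b ν G).be τ a x) τ₀ x₀
      (0, (zpl e ε R M j k b ν G).ν τ₀ a x₀) ∧
    Grows s (fun τ x => (zpl e ε R M j k b ν G).be τ a x) τ₀ x₀
      (0, (zpl e ε R M j k b ν G).ν τ₀ a x₀) := by
  rcases a with _ | i
  · exact be_none h.he
  · obtain ⟨U, hU, hev⟩ := hc
    refine be_some h hB hτ₀ hs (L := 1 / 8) ⟨U, hU, ?_⟩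
    filter_upwards [hev] with τ e1 y hy γ hγ hyγ
    obtain ⟨h1, h2, -⟩ := e1 y hy γ hγ hyγ
    exact ⟨h2 i, by rw [h1]⟩

/-- The piece `σ` of the slab. -/
theorem glf_sigma (h : ZFam s e ε R M j k b ν G) {τ₀ : T} (hτ₀ : τ₀ ∈ s)
    {x₀ : (ℝ × P) × V} {α : ℝ × P} {ω ν₀ : V}
    (hg : |x₀.1.1| = ‖x₀.1.2‖ → Grows s (fun _ (y : ℝ × P) => M * (‖y.2‖ - |y.1|)) τ₀ x₀.1 α)
    (ht : (zpl e ε R M j k b ν G).σ τ₀ none x₀ = 0) :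
    GLF s (fun τ x => (zpl e ε R M j k b ν G).σ τ none x) τ₀ x₀ (α, ω) (0, ν₀) := by
  have hA0 := h.adm τ₀ hτ₀
  have hM0 : 0 < M := by linarith [hA0.hM, hA0.hε, hA0.hR]
  have hw : |x₀.1.1| = ‖x₀.1.2‖ := by
    have : M * (‖x₀.1.2‖ - |x₀.1.1|) = 0 := ht
    rcases mul_eq_zero.mp this with h1 | h1
    · exact absurd h1 hM0.ne'
    · linarith
  have h1 := base_glf (s := s) (t₀ := τ₀) (x₀ := x₀) (ω := ω) (ν₀ := ν₀)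
    (f := fun _ y => M * (‖y.2‖ - |y.1|)) (hg hw) (dirLip_sigma M _)
  exact h1

/-- **Regularity from a fibre direction** `ω` which decreases the distance to the centres of all
the sheets active at their rims. -/
theorem zr_omega (h : ZFam s e ε R M j k b ν G)
    (hB : (zpl e ε R M j k b ν G).Base s ε (fun x => ‖x.1‖)) {τ₀ : T}
    (hτ₀ : τ₀ ∈ s) {x₀ : (ℝ × P) × V} (hs : x₀.1 ≠ 0)
    (hf : (zpl e ε R M j k b ν G).fn ε (fun x => ‖x.1‖) τ₀ x₀ = 0) {ω : V}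
    (hω : ∀ i, (zpl e ε R M j k b ν G).rho τ₀ (some i) x₀ = 0 →
      inner ℝ (x₀.2 - zC j k b G τ₀ i x₀.1) ω ≤ -‖x₀.2 - zC j k b G τ₀ i x₀.1‖)
    (hω0 : (zpl e ε R M j k b ν G).rho τ₀ none x₀ = 0 → ‖x₀.2‖ = R * ‖x₀.1‖ →
      inner ℝ x₀.2 ω ≤ -‖x₀.2‖) :
    RegAt s ((zpl e ε R M j k b ν G).fn ε (fun x => ‖x.1‖)) τ₀ x₀ := by
  have h0 : gre (zpl e ε R M j k b ν G).rho τ₀ x₀ = 0 := congrArg Complex.re hf
  have hN : ‖x₀.1‖ ≠ 0 := norm_ne_zero_iff.mpr hs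
  obtain ⟨a₀, ha₀⟩ := exists_gre (zpl e ε R M j k b ν G).rho τ₀ x₀
  have ha0 : (zpl e ε R M j k b ν G).rho τ₀ a₀ x₀ = 0 := by rw [← ha₀, h0]
  have hνa : ∀ a, (zpl e ε R M j k b ν G).rho τ₀ a x₀ = 0 →
      (zpl e ε R M j k b ν G).ν τ₀ a x₀ = (zpl e ε R M j k b ν G).ν τ₀ a₀ x₀ :=
    fun a ha => zr_nu h hτ₀ hs h0 a a₀ ha ha0
  have hbe : ∀ a, (zpl e ε R M j k b ν G).rho τ₀ a x₀ = 0 →
      inner ℝ ((zpl e ε R M j k b ν G).w τ₀ a x₀) ((zpl e ε R M j k b ν G).ν τ₀ a₀ x₀) = 0 := by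
    intro a ha
    rw [← hνa a ha]
    exact zr_be hB (h.adm τ₀ hτ₀).hε hτ₀ hs hf ha
  obtain ⟨c, hc, hwall⟩ := zr_dir h hτ₀ hs
  refine regAt_grow hB.toBaseL hτ₀ hN h0 (a := (((c, 0) : ℝ × P), ω))
    (e := (0, (zpl e ε R M j k b ν G).ν τ₀ a₀ x₀)) ?_ ?_ ?_
  · rintro (_ | i) ha ht
    · exact omega_tn h hτ₀ hs hc (hω0 ha) (hbe none ha) ht
    · exact omega_ts h hB hτ₀ hs hc (zr_act h hτ₀ hs h0 ha).2.2.1 (hω i ha) (hbe (some i) ha)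
  · rintro (_ | i) ha ht
    · exact glf_sigma h hτ₀ hwall ht
    · exact absurd ht (zr_act h hτ₀ hs h0 ha).2.1.ne'
  · intro a ha
    have := omega_be h hB hτ₀ hs hc a (ω := ω)
    rwa [hνa a ha] at this

end Vale.Agent.P268.T.Z293
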