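import Vale.Agent.P268.T.H293.ZipReg3

/-!
# P268, topological half: ZIP families, the crotch
-/

set_option linter.unusedSectionVars false

namespace Vale.Agent.P268.T.Z293

open Set Filter Topology Metric

variable {T P V A : Type*} [TopologicalSpace T] [NormedAddCommGroup P] [NormedSpace ℝ P]
  [NormedAddCommGroup V] [InnerProductSpace ℝ V] [DecidableEq A] [Fintype A]
  {s : Set T} {e : V} {ε R M : ℝ} {j k : A} {b ν : T → A → P → V} {G : T → ℝ × P → ℝ}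

theorem c01_mid {t : ℝ} (h0 : 0 < c01 t) (h1 : c01 t < 1) : c01 t = t ∧ 0 < t ∧ t < 1 := by
  have h2 : 0 < t := by
    by_contra h
    rw [zr_c01_zero (not_lt.mp h)] at h0
    exact lt_irrefl _ h0
  have h3 : t < 1 := by
    by_contra h
    rw [zr_c01_one (not_lt.mp h)] at h1
    exact lt_irrefl _ h1
  exact ⟨zr_c01_id h2.le h3.le, h2, h3⟩

/-- The geometry of the crotch: `w` is the vector from the centre of `j`. -/
theorem cro_geo (h : ZFam s e ε R M j k b ν G) {τ₀ : T} (hτ₀ : τ₀ ∈ s) {x₀ : (ℝ × P) × V}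
    (hs : x₀.1 ≠ 0) {w : V} (hj : x₀.2 - zC j k b G τ₀ j x₀.1 = w)
    (hk : x₀.2 - zC j k b G τ₀ k x₀.1 = -w) (hw : ‖w‖ = ε * ‖x₀.1‖) :
    -1 < G τ₀ x₀.1 ∧ G τ₀ x₀.1 < 0 ∧
      4 * ε ≤ -(inner ℝ w (b τ₀ j (kap x₀.1) - b τ₀ k (kap x₀.1)) / ‖w‖) := by
  have hg : 0 < ‖x₀.1‖ := norm_pos_iff.mpr hs
  have hA := h.adm τ₀ hτ₀
  have hε := hA.hε
  have hwp : 0 < ‖w‖ := by rw [hw]; positivity
  set D := b τ₀ j (kap x₀.1) - b τ₀ k (kap x₀.1) with hD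
  set θ := c01 (G τ₀ x₀.1 + 1) with hθ
  have hθ0 : 0 ≤ θ := zr_c01_nonneg _
  have hθ1 : θ ≤ 1 := zr_c01_le _
  have hD4 : 4 * ε ≤ ‖D‖ := hA.hd j k h.jk _ (kap_mem x₀.1)
  have e1 : (‖x₀.1‖ * (1 - θ)) • D = (-2 : ℝ) • w := by
    have e2 : zC j k b G τ₀ j x₀.1 - zC j k b G τ₀ k x₀.1 = (‖x₀.1‖ * (1 - θ)) • D := by
      rw [zC, zC, zcen_k, zcen_ne _ _ h.jk, ← smul_sub, mul_smul, sub_smul, one_smul]
      congr 1
      rw [hD, hθ]
      abel
    have e3 : zC j k b G τ₀ j x₀.1 - zC j k b G τ₀ k x₀.1 = -w - w := by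
      have e4 : (x₀.2 - zC j k b G τ₀ k x₀.1) - (x₀.2 - zC j k b G τ₀ j x₀.1) = -w - w := by
        rw [hj, hk]
      rw [← e4]
      abel
    rw [← e2, e3, neg_smul, two_smul]
    abel
  have e4 : ‖x₀.1‖ * ((1 - θ) * ‖D‖) = ‖x₀.1‖ * (2 * ε) := by
    have := congrArg norm e1
    rw [norm_smul, norm_smul, Real.norm_eq_abs, Real.norm_eq_abs, abs_mul, abs_norm,
      abs_of_nonneg (sub_nonneg.mpr hθ1), hw] at this
    norm_num at this
    linarith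
  have e5 : (1 - θ) * ‖D‖ = 2 * ε := mul_left_cancel₀ hg.ne' e4
  have hθ2 : θ < 1 := by
    by_contra h1
    have h2 : θ = 1 := le_antisymm hθ1 (not_lt.mp h1)
    rw [h2, sub_self, zero_mul] at e5
    linarith
  have hθ3 : 0 < θ := by
    by_contra h1
    have h2 : θ = 0 := le_antisymm (not_lt.mp h1) hθ0
    rw [h2, sub_zero, one_mul] at e5
    linarith
  obtain ⟨-, h2, h3⟩ := c01_mid hθ3 hθ2
  refine ⟨by linarith, by linarith, ?_⟩
  have hD' : D = (-(2 / (‖x₀.1‖ * (1 - θ)))) • w := by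
    have hne : ‖x₀.1‖ * (1 - θ) ≠ 0 := (mul_pos hg (sub_pos.mpr hθ2)).ne'
    have : D = (‖x₀.1‖ * (1 - θ))⁻¹ • ((‖x₀.1‖ * (1 - θ)) • D) := by
      rw [smul_smul, inv_mul_cancel₀ hne, one_smul]
    rw [this, e1, smul_smul]
    congr 1
    field_simp
  have hpos : 0 < 2 / (‖x₀.1‖ * (1 - θ)) := div_pos two_pos (mul_pos hg (sub_pos.mpr hθ2))
  have hDn : ‖D‖ = 2 / (‖x₀.1‖ * (1 - θ)) * ‖w‖ := by
    conv_lhs => rw [hD']
    rw [norm_smul, Real.norm_eq_abs, abs_neg, abs_of_pos hpos]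
  have e6 : -(inner ℝ w D / ‖w‖) = ‖D‖ := by
    rw [hDn]
    conv_lhs => rw [hD']
    rw [real_inner_smul_right, real_inner_self_eq_norm_sq]
    field_simp
  rw [e6]
  exact hD4

/-- Increment of the centre of `k`, when the data do not change. -/
theorem zC_k_incr {τ : T} {y y' : ℝ × P} (hj : b τ j (kap y') = b τ j (kap y))
    (hk : b τ k (kap y') = b τ k (kap y)) :
    zC j k b G τ k y' - zC j k b G τ k y =
      (‖y'‖ - ‖y‖) • zcen j k (b τ) (c01 (G τ y' + 1)) k (kap y) +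
        (‖y‖ * (c01 (G τ y' + 1) - c01 (G τ y + 1))) • (b τ j (kap y) - b τ k (kap y)) := by
  rw [zC, zC, zcen_k, zcen_k, zcen_k, hj, hk]
  module

theorem zC_j_incr (hjk : j ≠ k) {τ : T} {y y' : ℝ × P} (hj : b τ j (kap y') = b τ j (kap y)) :
    zC j k b G τ j y' - zC j k b G τ j y = (‖y'‖ - ‖y‖) • b τ j (kap y) := by
  rw [zC, zC, zcen_ne _ _ hjk, zcen_ne _ _ hjk, hj, sub_smul]

end Vale.Agent.P268.T.Z293
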