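import Vale.Agent.P268.T.H293.ZipReg4

/-!
# P268, topological half: ZIP families, regularity at the crotch
-/

set_option linter.unusedSectionVars false

namespace Vale.Agent.P268.T.Z293

open Set Filter Topology Metric

variable {T P V A : Type*} [TopologicalSpace T] [NormedAddCommGroup P] [NormedSpace ℝ P]
  [NormedAddCommGroup V] [InnerProductSpace ℝ V] [DecidableEq A] [Fintype A]
  {s : Set T} {e : V} {ε R M : ℝ} {j k : A} {b ν : T → A → P → V} {G : T → ℝ × P → ℝ}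

theorem cwa_dat {f : T × P → V} (hf : ContinuousOn f (s ×ˢ closedBall 0 1)) {τ₀ : T}
    (hτ₀ : τ₀ ∈ s) {y₀ : ℝ × P} (hs : y₀ ≠ 0) :
    ContinuousWithinAt (fun p : T × (ℝ × P) => f (p.1, kap p.2)) (s ×ˢ univ) (τ₀, y₀) := by
  have h1 : ContinuousAt (fun p : T × (ℝ × P) => kap p.2) (τ₀, y₀) :=
    ContinuousAt.comp (g := (kap : ℝ × P → P)) (continuousAt_kap hs) continuousAt_snd
  exact ContinuousWithinAt.comp (g := f) (t := s ×ˢ closedBall (0 : P) 1)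
    (hf (τ₀, kap y₀) ⟨hτ₀, kap_mem _⟩) (continuousAt_fst.prodMk h1).continuousWithinAt
    (fun p hp => ⟨hp.1, kap_mem _⟩)

theorem cwa_G (h : ZFam s e ε R M j k b ν G) {τ₀ : T} (hτ₀ : τ₀ ∈ s) {y₀ : ℝ × P}
    (hs : y₀ ≠ 0) :
    ContinuousWithinAt (fun p : T × (ℝ × P) => G p.1 p.2) (s ×ˢ univ) (τ₀, y₀) := by
  refine (h.cG (τ₀, y₀) ⟨hτ₀, hs⟩).mono_of_mem_nhdsWithin ?_
  have h1 : {p : T × (ℝ × P) | p.2 ≠ 0} ∈ 𝓝 (τ₀, y₀) :=
    continuousAt_snd.preimage_mem_nhds (isOpen_compl_singleton.mem_nhds hs)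
  filter_upwards [self_mem_nhdsWithin, mem_nhdsWithin_of_mem_nhds h1] with p hp hp'
  exact ⟨hp.1, hp'⟩

/-- Facts near the crotch. -/
theorem cro_near (h : ZFam s e ε R M j k b ν G) {τ₀ : T} (hτ₀ : τ₀ ∈ s) {y₀ : ℝ × P}
    (hs : y₀ ≠ 0) (hG1 : -1 < G τ₀ y₀) (hG2 : G τ₀ y₀ < 0) {w : V}
    (hD : 4 * ε ≤ -(inner ℝ w (b τ₀ j (kap y₀) - b τ₀ k (kap y₀)) / ‖w‖)) {η : ℝ}
    (hη : 0 < η) :
    ∃ U ∈ 𝓝 y₀, ∀ᶠ τ in 𝓝[s] τ₀, ∀ y ∈ U, -1 < G τ y ∧ G τ y < 0 ∧ ‖y‖ ≤ ‖y₀‖ + 1 ∧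
      4 * ε * ‖y₀‖ - η ≤ ‖y‖ * -(inner ℝ w (b τ j (kap y) - b τ k (kap y)) / ‖w‖) := by
  have c1 := cwa_G h hτ₀ hs
  have c2 : ContinuousWithinAt (fun p : T × (ℝ × P) => b p.1 j (kap p.2)) (s ×ˢ univ)
      (τ₀, y₀) := cwa_dat (f := fun q => b q.1 j q.2) (h.fam.cb j) hτ₀ hs
  have c3 : ContinuousWithinAt (fun p : T × (ℝ × P) => b p.1 k (kap p.2)) (s ×ˢ univ)
      (τ₀, y₀) := cwa_dat (f := fun q => b q.1 k q.2) (h.fam.cb k) hτ₀ hs
  have c4 : ContinuousWithinAt (fun p : T × (ℝ × P) => ‖p.2‖) (s ×ˢ univ) (τ₀, y₀) := by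
    have : Continuous fun p : T × (ℝ × P) => ‖p.2‖ := by fun_prop
    exact this.continuousWithinAt
  have c5 : ContinuousWithinAt (fun p : T × (ℝ × P) =>
      ‖p.2‖ * -(inner ℝ w (b p.1 j (kap p.2) - b p.1 k (kap p.2)) / ‖w‖)) (s ×ˢ univ)
      (τ₀, y₀) := by
    have : ContinuousWithinAt (fun p : T × (ℝ × P) =>
        (inner ℝ w (b p.1 j (kap p.2) - b p.1 k (kap p.2)) : ℝ)) (s ×ˢ univ) (τ₀, y₀) :=
      continuousWithinAt_const.inner (𝕜 := ℝ) (c2.sub c3)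
    exact c4.mul (this.div_const _).neg
  have h1 : 4 * ε * ‖y₀‖ - η <
      ‖y₀‖ * -(inner ℝ w (b τ₀ j (kap y₀) - b τ₀ k (kap y₀)) / ‖w‖) := by
    have := mul_le_mul_of_nonneg_left hD (norm_nonneg y₀)
    linarith
  refine ev_prod (Q := fun τ y => -1 < G τ y ∧ G τ y < 0 ∧ ‖y‖ ≤ ‖y₀‖ + 1 ∧
      4 * ε * ‖y₀‖ - η ≤ ‖y‖ * -(inner ℝ w (b τ j (kap y) - b τ k (kap y)) / ‖w‖)) ?_
  filter_upwards [c1.eventually (lt_mem_nhds hG1), c1.eventually (gt_mem_nhds hG2),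
    c4.eventually (gt_mem_nhds (lt_add_one ‖y₀‖)), c5.eventually (lt_mem_nhds h1)]
    with p p1 p2 p3 p4
  exact ⟨p1, p2, p3.le, p4.le⟩

theorem cro_inner (w : V) (hw : 0 < ‖w‖) (β : ℝ) :
    inner ℝ w (-(β / ‖w‖) • w) / ‖w‖ = -β := by
  rw [real_inner_smul_right, real_inner_self_eq_norm_sq]
  field_simp

/-- The condition on the sheet `j` at the crotch. -/
theorem cro_tpj (h : ZFam s e ε R M j k b ν G) {τ₀ : T} {y₀ : ℝ × P} {w : V} (hw : 0 < ‖w‖)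
    {α : ℝ × P} {q β : ℝ} (hq : 0 ≤ q) (hβ : R * q < β)
    (H : ∃ U ∈ 𝓝 y₀, ∀ᶠ τ in 𝓝[s] τ₀, ∀ y ∈ U, ∀ γ : ℝ, 0 ≤ γ → y + γ • α ∈ U →
      b τ j (kap (y + γ • α)) = b τ j (kap y) ∧ |‖y + γ • α‖ - ‖y‖| ≤ q * γ) :
    TpDir s (fun τ y => zC j k b G τ j y) (fun _ y => ε * ‖y‖) τ₀ y₀ w α
      (-(β / ‖w‖) • w) := by
  obtain ⟨U, hU, hev⟩ := H
  refine ⟨β - R * q, (R + ε) * q, by linarith, U, hU, ?_⟩
  filter_upwards [hev, self_mem_nhdsWithin] with τ e1 hτ y hy γ hγ hyγ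
  obtain ⟨d1, d2⟩ := e1 y hy γ hγ hyγ
  have hA := h.adm τ hτ
  have hε := hA.hε
  have hb := hA.hb j _ (kap_mem y)
  have hn := norm_nonneg (b τ j (kap y))
  rw [zC_j_incr h.jk d1]
  have h1 : ‖(‖y + γ • α‖ - ‖y‖) • b τ j (kap y)‖ ≤ q * γ * (R - 2 * ε) := by
    rw [norm_smul, Real.norm_eq_abs]
    refine mul_le_mul d2 (by linarith) hn (by positivity)
  have hqγ : 0 ≤ q * γ := by positivity
  have h2 : |ε * ‖y + γ • α‖ - ε * ‖y‖| ≤ ε * (q * γ) := by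
    rw [← mul_sub, abs_mul, abs_of_pos hε]
    exact mul_le_mul_of_nonneg_left d2 hε.le
  have hqε : 0 ≤ q * γ * ε := by positivity
  refine ⟨?_, ?_, ?_⟩
  · rw [cro_inner w hw]
    have h3 : -(q * γ * (R - 2 * ε)) ≤
        inner ℝ w ((‖y + γ • α‖ - ‖y‖) • b τ j (kap y)) / ‖w‖ := by
      rw [le_div_iff₀ hw]
      have h4 := (abs_le.mp (abs_real_inner_le_norm w
        ((‖y + γ • α‖ - ‖y‖) • b τ j (kap y)))).1
      have h5 := mul_le_mul_of_nonneg_left h1 hw.le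
      linarith
    have h6 := (abs_le.mp h2).1
    have e2 : (β - R * q) * γ = -(q * γ * (R - 2 * ε)) - γ * -β + -(ε * (q * γ)) -
        q * γ * ε := by ring
    rw [e2]
    linarith
  · refine h1.trans ?_
    have e2 : (R + ε) * q * γ = q * γ * (R - 2 * ε) + 3 * (q * γ * ε) := by ring
    rw [e2]
    linarith
  · refine h2.trans ?_
    have hR : 0 ≤ R := by linarith [hA.hR]
    have : 0 ≤ R * (q * γ) := by positivity
    have e2 : (R + ε) * q * γ = ε * (q * γ) + R * (q * γ) := by ring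
    rw [e2]
    linarith

/-- The condition on the sheet `k` at the crotch. -/
theorem cro_tpk (h : ZFam s e ε R M j k b ν G) {τ₀ : T} {y₀ : ℝ × P} {w : V}
    (hw : 0 < ‖w‖) {α : ℝ × P} {lam q L : ℝ} (hlam : 0 < lam) (hq : 0 ≤ q)
    (hβ : R * q < 2 * ε * lam * ‖y₀‖)
    (H : ∃ U ∈ 𝓝 y₀, ∀ᶠ τ in 𝓝[s] τ₀, ∀ y ∈ U, ∀ γ : ℝ, 0 ≤ γ → y + γ • α ∈ U →
      lam * γ ≤ G τ (y + γ • α) - G τ y ∧ G τ (y + γ • α) - G τ y ≤ L * γ ∧
      b τ j (kap (y + γ • α)) = b τ j (kap y) ∧ b τ k (kap (y + γ • α)) = b τ k (kap y) ∧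
      |‖y + γ • α‖ - ‖y‖| ≤ q * γ)
    (H' : ∃ U ∈ 𝓝 y₀, ∀ᶠ τ in 𝓝[s] τ₀, ∀ y ∈ U, -1 < G τ y ∧ G τ y < 0 ∧
      ‖y‖ ≤ ‖y₀‖ + 1 ∧ 4 * ε * ‖y₀‖ - (2 * ε * lam * ‖y₀‖ - R * q) / (2 * lam) ≤
        ‖y‖ * -(inner ℝ w (b τ j (kap y) - b τ k (kap y)) / ‖w‖))
    (hε : 0 < ε) (hR : 0 ≤ R) :
    TpDir s (fun τ y => zC j k b G τ k y) (fun _ y => ε * ‖y‖) τ₀ y₀ (-w) α
      (-(2 * ε * lam * ‖y₀‖ / ‖w‖) • w) := by
  obtain ⟨U, hU, hev⟩ := H
  obtain ⟨U', hU', hev'⟩ := H'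
  set β := 2 * ε * lam * ‖y₀‖ with hβd
  set ρ := β - R * q with hρ
  have hρ0 : 0 < ρ := by linarith
  refine ⟨ρ / 2, (R + ε) * q + (‖y₀‖ + 1) * (|L| * (2 * R)), by linarith, U ∩ U',
    inter_mem hU hU', ?_⟩
  filter_upwards [hev, hev', self_mem_nhdsWithin] with τ e1 e2 hτ y hy γ hγ hyγ
  obtain ⟨d1, d2, d3, d4, d5⟩ := e1 y hy.1 γ hγ hyγ.1
  obtain ⟨f1, f2, f3, f4⟩ := e2 y hy.2
  obtain ⟨g1, g2, -, -⟩ := e2 _ hyγ.2
  have hqγ : 0 ≤ q * γ := by positivity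
  have hqε : 0 ≤ q * γ * ε := by positivity
  have h2 : |ε * ‖y + γ • α‖ - ε * ‖y‖| ≤ ε * (q * γ) := by
    rw [← mul_sub, abs_mul, abs_of_pos hε]
    exact mul_le_mul_of_nonneg_left d5 hε.le
  have hθ : c01 (G τ (y + γ • α) + 1) - c01 (G τ y + 1) = G τ (y + γ • α) - G τ y := by
    rw [zr_c01_id (by linarith) (by linarith), zr_c01_id (by linarith) (by linarith)]
    ring
  have hc := zr_norm_cen h hτ k (kap_mem y) (zr_c01_nonneg (G τ (y + γ • α) + 1))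
    (zr_c01_le _)
  have hc0 := norm_nonneg (zcen j k (b τ) (c01 (G τ (y + γ • α) + 1)) k (kap y))
  have hrest : 0 ≤ (‖y₀‖ + 1) * (|L| * (2 * R)) * γ := by positivity
  refine ⟨?_, ?_, ?_⟩
  · rw [zC_k_incr d3 d4, hθ, norm_neg, inner_neg_left, inner_neg_left, neg_div, neg_div,
      cro_inner w hw, inner_add_right, real_inner_smul_right, real_inner_smul_right, add_div]
    set Δ := G τ (y + γ • α) - G τ y with hΔ
    set D := b τ j (kap y) - b τ k (kap y) with hD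
    set Q := ‖y‖ * -(inner ℝ w D / ‖w‖) with hQ
    have h3 : (‖y + γ • α‖ - ‖y‖) *
        inner ℝ w (zcen j k (b τ) (c01 (G τ (y + γ • α) + 1)) k (kap y)) / ‖w‖ ≤
        q * γ * (R - 2 * ε) := by
      rw [div_le_iff₀ hw]
      have h4 := abs_real_inner_le_norm w
        (zcen j k (b τ) (c01 (G τ (y + γ • α) + 1)) k (kap y))
      have h5 : |(‖y + γ • α‖ - ‖y‖) *
        inner ℝ w (zcen j k (b τ) (c01 (G τ (y + γ • α) + 1)) k (kap y))| ≤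
          q * γ * (‖w‖ * (R - 2 * ε)) := by
        rw [abs_mul]
        refine mul_le_mul d5 (h4.trans ?_) (abs_nonneg _) hqγ
        exact mul_le_mul_of_nonneg_left (by linarith) hw.le
      have h6 := (abs_le.mp h5).2
      linarith
    have h7 : ‖y‖ * Δ * inner ℝ w D / ‖w‖ = -(Q * Δ) := by rw [hQ]; ring
    rw [h7]
    have hη : (β - R * q) / (2 * lam) * lam = ρ / 2 := by rw [hρ]; field_simp
    have hQ0 : 0 ≤ Q := by
      refine le_trans ?_ f4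
      have : (β - R * q) / (2 * lam) ≤ 4 * ε * ‖y₀‖ := by
        rw [div_le_iff₀ (by positivity)]
        have h8 : 0 ≤ R * q := by positivity
        have h9 : 0 ≤ ε * lam * ‖y₀‖ := by positivity
        have e3 : 4 * ε * ‖y₀‖ * (2 * lam) = 8 * (ε * lam * ‖y₀‖) := by ring
        have e4 : β = 2 * (ε * lam * ‖y₀‖) := by rw [hβd]; ring
        rw [e3, e4]
        linarith
      linarith
    have h8 : (2 * β - ρ / 2) * γ ≤ Q * Δ := by
      have h9 : (4 * ε * ‖y₀‖ - (β - R * q) / (2 * lam)) * (lam * γ) ≤ Q * (lam * γ) :=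
        mul_le_mul_of_nonneg_right f4 (by positivity)
      have h10 : Q * (lam * γ) ≤ Q * Δ := mul_le_mul_of_nonneg_left d1 hQ0
      have e3 : (4 * ε * ‖y₀‖ - (β - R * q) / (2 * lam)) * (lam * γ) =
          (2 * (2 * ε * lam * ‖y₀‖) - (β - R * q) / (2 * lam) * lam) * γ := by ring
      rw [e3, hη, ← hβd] at h9
      linarith
    have h11 := (abs_le.mp h2).1
    have e5 : ρ / 2 * γ = (2 * β - ρ / 2) * γ - q * γ * (R - 2 * ε) - γ * β -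
        ε * (q * γ) - q * γ * ε := by rw [hρ]; ring
    rw [e5]
    linarith
  · have hk : ‖zC j k b G τ k (y + γ • α) - zC j k b G τ k y‖ ≤
        q * γ * R + (‖y₀‖ + 1) * (|L| * γ * (2 * R)) := by
      rw [zC_k_incr d3 d4, hθ]
      refine (norm_add_le _ _).trans (add_le_add ?_ ?_)
      · rw [norm_smul, Real.norm_eq_abs]
        exact mul_le_mul d5 (by linarith) hc0 hqγ
      · rw [norm_smul, Real.norm_eq_abs, abs_mul, abs_norm]
        have h3 : |G τ (y + γ • α) - G τ y| ≤ |L| * γ := by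
          rw [abs_of_nonneg (le_trans (by positivity) d1)]
          exact d2.trans (mul_le_mul_of_nonneg_right (le_abs_self L) hγ)
        have h4 : ‖b τ j (kap y) - b τ k (kap y)‖ ≤ 2 * R := by
          have a1 := (h.adm τ hτ).hb j _ (kap_mem y)
          have a2 := (h.adm τ hτ).hb k _ (kap_mem y)
          refine (norm_sub_le _ _).trans ?_
          linarith
        calc _ ≤ (‖y₀‖ + 1) * (|L| * γ) * (2 * R) := by
              refine mul_le_mul (mul_le_mul f3 h3 (abs_nonneg _) (by positivity)) h4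
                (norm_nonneg _) (by positivity)
          _ = _ := by ring
    refine hk.trans ?_
    have e3 : ((R + ε) * q + (‖y₀‖ + 1) * (|L| * (2 * R))) * γ = q * γ * R +
      (‖y₀‖ + 1) * (|L| * γ * (2 * R)) + q * γ * ε := by ring
    rw [e3]
    linarith
  · refine h2.trans ?_
    have h3 : 0 ≤ R * (q * γ) := by positivity
    have e3 : ((R + ε) * q + (‖y₀‖ + 1) * (|L| * (2 * R))) * γ =
      ε * (q * γ) + R * (q * γ) + (‖y₀‖ + 1) * (|L| * (2 * R)) * γ := by ring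
    rw [e3]
    linarith

end Vale.Agent.P268.T.Z293
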