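import Vale.Agent.P268.T.H293.ZipReg5

/-!
# P268, topological half: **ZIP families are in the class `R`**
-/

set_option linter.unusedSectionVars false

namespace Vale.Agent.P268.T.Z293

open Set Filter Topology Metric

variable {T P V A : Type*} [TopologicalSpace T] [NormedAddCommGroup P] [NormedSpace ℝ P]
  [NormedAddCommGroup V] [InnerProductSpace ℝ V] [DecidableEq A] [Fintype A]
  {s : Set T} {e : V} {ε R M : ℝ} {j k : A} {b ν : T → A → P → V} {G : T → ℝ × P → ℝ}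

/-- Only `j` and `k` are active where both are. -/
theorem only_jk (h : ZFam s e ε R M j k b ν G) {τ₀ : T} (hτ₀ : τ₀ ∈ s) {x₀ : (ℝ × P) × V}
    (hs : x₀.1 ≠ 0) (h0 : gre (zpl e ε R M j k b ν G).rho τ₀ x₀ = 0)
    (hj : (zpl e ε R M j k b ν G).rho τ₀ (some j) x₀ = 0) {i : A}
    (hi : (zpl e ε R M j k b ν G).rho τ₀ (some i) x₀ = 0) : i = j ∨ i = k := by
  by_cases hij : i = j
  · exact Or.inl hij
  · right
    have hε := mul_pos (h.adm τ₀ hτ₀).hε (norm_pos_iff.mpr hs)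
    have k1 := (zr_act h hτ₀ hs h0 hi).2.2.1
    have k2 := (zr_act h hτ₀ hs h0 hj).2.2.1
    obtain ⟨-, h3 | h3⟩ := zr_pair h hτ₀ hs hij (by linarith) (by linarith)
    · exact absurd h3.1 hij
    · exact h3.1

theorem cro_be (h : ZFam s e ε R M j k b ν G)
    (hB : (zpl e ε R M j k b ν G).Base s ε (fun x => ‖x.1‖)) {τ₀ : T}
    (hτ₀ : τ₀ ∈ s) {x₀ : (ℝ × P) × V} (hs : x₀.1 ≠ 0) {α : ℝ × P} {ω : V} {q L : ℝ}
    (H : ∃ U ∈ 𝓝 x₀.1, ∀ᶠ τ in 𝓝[s] τ₀, ∀ y ∈ U, ∀ γ : ℝ, 0 ≤ γ → y + γ • α ∈ U →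
      0 ≤ G τ (y + γ • α) - G τ y ∧ G τ (y + γ • α) - G τ y ≤ L * γ ∧
      (b τ j (kap (y + γ • α)) = b τ j (kap y) ∧ b τ k (kap (y + γ • α)) = b τ k (kap y) ∧
        ν τ j (kap (y + γ • α)) = ν τ j (kap y) ∧ ν τ k (kap (y + γ • α)) = ν τ k (kap y)) ∧
      |‖y + γ • α‖ - ‖y‖| ≤ q * γ) {i : A} (hi : i = j ∨ i = k) :
    DirLip s (fun τ x => (zpl e ε R M j k b ν G).be τ (some i) x) τ₀ x₀ (α, ω) ∧
    DirLip s (fun τ x => (zpl e ε R M j k b ν G).be τ (some i) x) τ₀ x₀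
      (0, ν τ₀ i (kap x₀.1)) ∧
    Grows s (fun τ x => (zpl e ε R M j k b ν G).be τ (some i) x) τ₀ x₀
      (0, ν τ₀ i (kap x₀.1)) := by
  obtain ⟨U, hU, hev⟩ := H
  have hR0 : 0 ≤ R := by linarith [(h.adm τ₀ hτ₀).hε, (h.adm τ₀ hτ₀).hR]
  let W : Set (ℝ × P) := {y | ‖y‖ < ‖x₀.1‖ + 1}
  have hW : W ∈ 𝓝 x₀.1 := by
    refine IsOpen.mem_nhds (isOpen_lt continuous_norm continuous_const) ?_
    show ‖x₀.1‖ < ‖x₀.1‖ + 1
    linarith
  refine be_some h hB hτ₀ hs (L := q * R + (‖x₀.1‖ + 1) * (|L| * (2 * R)))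
    ⟨U ∩ W, inter_mem hU hW, ?_⟩
  filter_upwards [hev, self_mem_nhdsWithin] with τ e1 hτ y hy γ hγ hyγ
  obtain ⟨d1, d2, ⟨dj, dk, nj, nk⟩, d5⟩ := e1 y hy.1 γ hγ hyγ.1
  have hyW : ‖y‖ ≤ ‖x₀.1‖ + 1 := le_of_lt hy.2
  have hqγ : 0 ≤ q * γ := (abs_nonneg _).trans d5
  have hLγ : 0 ≤ |L| * γ := by positivity
  rcases hi with rfl | rfl
  · refine ⟨?_, nj⟩
    have hb := (h.adm τ hτ).hb i _ (kap_mem y)
    have hε := (h.adm τ hτ).hε
    rw [zC_j_incr h.jk dj, norm_smul, Real.norm_eq_abs]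
    have h1 : |‖y + γ • α‖ - ‖y‖| * ‖b τ i (kap y)‖ ≤ q * γ * R :=
      mul_le_mul d5 (by linarith) (norm_nonneg _) hqγ
    refine h1.trans ?_
    have h2 : 0 ≤ (‖x₀.1‖ + 1) * (|L| * γ * (2 * R)) := by positivity
    have e3 : (q * R + (‖x₀.1‖ + 1) * (|L| * (2 * R))) * γ = q * γ * R +
      (‖x₀.1‖ + 1) * (|L| * γ * (2 * R)) := by ring
    rw [e3]
    linarith
  · refine ⟨?_, nk⟩
    have hε := (h.adm τ hτ).hε
    have hc := zr_norm_cen h hτ i (kap_mem y) (zr_c01_nonneg (G τ (y + γ • α) + 1))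
      (zr_c01_le _)
    have hc0 := norm_nonneg (zcen j i (b τ) (c01 (G τ (y + γ • α) + 1)) i (kap y))
    rw [zC_k_incr dj dk]
    refine (norm_add_le _ _).trans ?_
    have h1 : ‖(‖y + γ • α‖ - ‖y‖) • zcen j i (b τ) (c01 (G τ (y + γ • α) + 1)) i (kap y)‖ ≤
        q * γ * R := by
      rw [norm_smul, Real.norm_eq_abs]
      exact mul_le_mul d5 (by linarith) hc0 hqγ
    have h2 : ‖(‖y‖ * (c01 (G τ (y + γ • α) + 1) - c01 (G τ y + 1))) •
        (b τ j (kap y) - b τ i (kap y))‖ ≤ (‖x₀.1‖ + 1) * (|L| * γ * (2 * R)) := by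
      rw [norm_smul, Real.norm_eq_abs, abs_mul, abs_norm]
      have h3 : |c01 (G τ (y + γ • α) + 1) - c01 (G τ y + 1)| ≤ |L| * γ := by
        refine (zr_c01_lip _ _).trans ?_
        rw [add_sub_add_right_eq_sub, abs_of_nonneg d1]
        exact d2.trans (mul_le_mul_of_nonneg_right (le_abs_self L) hγ)
      have h4 : ‖b τ j (kap y) - b τ i (kap y)‖ ≤ 2 * R := by
        have a1 := (h.adm τ hτ).hb j _ (kap_mem y)
        have a2 := (h.adm τ hτ).hb i _ (kap_mem y)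
        refine (norm_sub_le _ _).trans ?_
        linarith
      calc _ ≤ (‖x₀.1‖ + 1) * (|L| * γ) * (2 * R) := by
            refine mul_le_mul (mul_le_mul hyW h3 (abs_nonneg _) (by positivity)) h4
              (norm_nonneg _) (by positivity)
        _ = _ := by ring
    have e3 : (q * R + (‖x₀.1‖ + 1) * (|L| * (2 * R))) * γ = q * γ * R +
      (‖x₀.1‖ + 1) * (|L| * γ * (2 * R)) := by ring
    rw [e3]
    exact add_le_add h1 h2

/-- **Regularity at the crotch.** -/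
theorem zr_crotch (h : ZFam s e ε R M j k b ν G)
    (hB : (zpl e ε R M j k b ν G).Base s ε (fun x => ‖x.1‖)) {τ₀ : T}
    (hτ₀ : τ₀ ∈ s) {x₀ : (ℝ × P) × V} (hs : x₀.1 ≠ 0)
    (hf : (zpl e ε R M j k b ν G).fn ε (fun x => ‖x.1‖) τ₀ x₀ = 0)
    (hj : (zpl e ε R M j k b ν G).rho τ₀ (some j) x₀ = 0)
    (hk : x₀.2 - zC j k b G τ₀ k x₀.1 = -(x₀.2 - zC j k b G τ₀ j x₀.1)) :
    RegAt s ((zpl e ε R M j k b ν G).fn ε (fun x => ‖x.1‖)) τ₀ x₀ := by
  have h0 : gre (zpl e ε R M j k b ν G).rho τ₀ x₀ = 0 := congrArg Complex.re hf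
  have hN : ‖x₀.1‖ ≠ 0 := norm_ne_zero_iff.mpr hs
  have hA := h.adm τ₀ hτ₀
  have hε := hA.hε
  have hR0 : 0 ≤ R := by linarith [hA.hR]
  have hM0 : 0 < M := by linarith [hA.hM, hA.hR]
  obtain ⟨hp, -, hwn, hv⟩ := zr_act h hτ₀ hs h0 hj
  obtain ⟨hG1, hG2, hD⟩ := cro_geo h hτ₀ hs rfl hk hwn
  have hwp : 0 < ‖x₀.2 - zC j k b G τ₀ j x₀.1‖ := by
    rw [hwn]; exact mul_pos hε (norm_pos_iff.mpr hs)
  obtain ⟨α, lam, q, L, d, hlam, hq, hd, hnum, U, hU, hev⟩ := h.cro τ₀ hτ₀ x₀.1 hs hp hG1 hG2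
  have hνa : ∀ a, (zpl e ε R M j k b ν G).rho τ₀ a x₀ = 0 →
      (zpl e ε R M j k b ν G).ν τ₀ a x₀ = (zpl e ε R M j k b ν G).ν τ₀ (some j) x₀ :=
    fun a ha => zr_nu h hτ₀ hs h0 a (some j) ha hj
  have hbj : inner ℝ (x₀.2 - zC j k b G τ₀ j x₀.1)
      ((zpl e ε R M j k b ν G).ν τ₀ (some j) x₀) = 0 := zr_be hB hε hτ₀ hs hf hj
  have hβ : 0 < 2 * ε * lam * ‖x₀.1‖ - R * q := sub_pos.mpr hnum
  obtain ⟨U', hU', hev'⟩ := cro_near h hτ₀ hs hG1 hG2 hD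
    (η := (2 * ε * lam * ‖x₀.1‖ - R * q) / (2 * lam)) (by positivity)
  refine regAt_grow hB.toBaseL hτ₀ hN h0 (a := (α,
    -(2 * ε * lam * ‖x₀.1‖ / ‖x₀.2 - zC j k b G τ₀ j x₀.1‖) •
      (x₀.2 - zC j k b G τ₀ j x₀.1)))
    (e := (0, (zpl e ε R M j k b ν G).ν τ₀ (some j) x₀)) ?_ ?_ ?_
  · rintro (_ | i) ha ht
    · exfalso
      have : R * ‖x₀.1‖ - ‖x₀.2‖ = 0 := ht
      linarith
    · rcases only_jk h hτ₀ hs h0 hj ha with rfl | rfl
      · refine glf_some hB hτ₀ (norm_pos_iff.mp hwp) hbj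
          (cro_tpj h hwp hq hnum ⟨U, hU, hev.mono fun τ e1 y hy γ hγ hyγ => ?_⟩)
        obtain ⟨-, -, d3, d4, -⟩ := e1 y hy γ hγ hyγ
        exact ⟨d3.1, d4⟩
      · refine glf_some hB hτ₀ (by rw [hk]; exact neg_ne_zero.mpr (norm_pos_iff.mp hwp))
          (by rw [hk, inner_neg_left, hbj, neg_zero]) ?_
        rw [hk]
        refine cro_tpk h hwp hlam hq hnum (L := L)
          ⟨U, hU, hev.mono fun τ e1 y hy γ hγ hyγ => ?_⟩ ⟨U', hU', hev'⟩ hε hR0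
        obtain ⟨d1, d2, d3, d4, -⟩ := e1 y hy γ hγ hyγ
        exact ⟨d1, d2, d3.1, d3.2.1, d4⟩
  · rintro (_ | i) ha ht
    · refine glf_sigma h hτ₀ (fun hw => ?_) ht
      have hx1 : 0 ≤ x₀.1.1 := (norm_nonneg _).trans hp
      rw [abs_of_nonneg hx1] at hw
      refine grows_of_pos (κ := M * d) (by positivity) ⟨U, hU, ?_⟩
      filter_upwards [hev] with τ e1 y hy γ hγ hyγ
      obtain ⟨-, -, -, -, d5⟩ := e1 y hy γ hγ hyγ
      have := mul_le_mul_of_nonneg_left (d5 hw.symm) hM0.le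
      linarith
    · exact absurd ht (zr_act h hτ₀ hs h0 ha).2.1.ne'
  · rintro (_ | i) ha
    · have h1 : (zpl e ε R M j k b ν G).ν τ₀ (some j) x₀ = e := (hνa none ha).symm
      rw [h1]
      exact be_none h.he
    · have h1 : (zpl e ε R M j k b ν G).ν τ₀ (some j) x₀ = ν τ₀ i (kap x₀.1) :=
        (hνa (some i) ha).symm
      rw [h1]
      refine cro_be h hB hτ₀ hs (q := q) (L := L) ⟨U, hU, ?_⟩ (only_jk h hτ₀ hs h0 hj ha)
      filter_upwards [hev] with τ e1 y hy γ hγ hyγ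
      obtain ⟨d1, d2, d3, d4, -⟩ := e1 y hy γ hγ hyγ
      exact ⟨le_trans (by positivity) d1, d2, d3, d4⟩

theorem inner_self_neg (w : V) : inner ℝ w (-(‖w‖⁻¹ • w)) ≤ -‖w‖ := by
  rw [inner_neg_right, real_inner_smul_right, real_inner_self_eq_norm_sq]
  by_cases hw : ‖w‖ = 0
  · rw [hw]; simp
  · apply le_of_eq
    field_simp

/-- Regularity at every zero. -/
theorem zr_reg (h : ZFam s e ε R M j k b ν G)
    (hB : (zpl e ε R M j k b ν G).Base s ε (fun x => ‖x.1‖)) {τ₀ : T}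
    (hτ₀ : τ₀ ∈ s) {x₀ : (ℝ × P) × V} (hs : x₀.1 ≠ 0)
    (hf : (zpl e ε R M j k b ν G).fn ε (fun x => ‖x.1‖) τ₀ x₀ = 0) :
    RegAt s ((zpl e ε R M j k b ν G).fn ε (fun x => ‖x.1‖)) τ₀ x₀ := by
  have h0 : gre (zpl e ε R M j k b ν G).rho τ₀ x₀ = 0 := congrArg Complex.re hf
  have hg : 0 < ‖x₀.1‖ := norm_pos_iff.mpr hs
  have hA := h.adm τ₀ hτ₀
  have hε := hA.hε
  by_cases hex : ∃ i, (zpl e ε R M j k b ν G).rho τ₀ (some i) x₀ = 0
  · obtain ⟨i, hi⟩ := hex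
    have hv := (zr_act h hτ₀ hs h0 hi).2.2.2
    by_cases hjk : (zpl e ε R M j k b ν G).rho τ₀ (some j) x₀ = 0 ∧
        (zpl e ε R M j k b ν G).rho τ₀ (some k) x₀ = 0
    · obtain ⟨hj, hk⟩ := hjk
      have hwj := (zr_act h hτ₀ hs h0 hj).2.2.1
      have hwk := (zr_act h hτ₀ hs h0 hk).2.2.1
      set wj := x₀.2 - zC j k b G τ₀ j x₀.1 with hwjd
      set wk := x₀.2 - zC j k b G τ₀ k x₀.1 with hwkd
      by_cases hsum : wj + wk = 0
      · exact zr_crotch h hB hτ₀ hs hf hj (eq_neg_of_add_eq_zero_right hsum)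
      · -- overlapping discs
        have hρ : 0 < ε * ‖x₀.1‖ := mul_pos hε hg
        set κ := (ε * ‖x₀.1‖) ^ 2 + inner ℝ wj wk with hκ
        have hκ0 : 0 < κ := by
          have h1 : 0 < ‖wj + wk‖ ^ 2 := by
            have := norm_pos_iff.mpr hsum
            positivity
          rw [norm_add_sq_real, hwj, hwk] at h1
          rw [hκ]
          linarith
        have e1 : inner ℝ wj (wj + wk) = κ := by
          rw [inner_add_right, real_inner_self_eq_norm_sq, hwj]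
        have e2 : inner ℝ wk (wj + wk) = κ := by
          rw [inner_add_right, real_inner_self_eq_norm_sq, hwk, real_inner_comm, hκ]
          ring
        refine zr_omega h hB hτ₀ hs hf (ω := -((ε * ‖x₀.1‖ / κ) • (wj + wk))) ?_ ?_
        · intro i' hi'
          rcases only_jk h hτ₀ hs h0 hj hi' with rfl | rfl
          · rw [← hwjd, inner_neg_right, real_inner_smul_right, e1, hwj]
            apply le_of_eq
            field_simp
          · rw [← hwkd, inner_neg_right, real_inner_smul_right, e2, hwk]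
            apply le_of_eq
            field_simp
        · intro _ h1
          exact absurd h1 hv.ne
    · refine zr_omega h hB hτ₀ hs hf
        (ω := -(‖x₀.2 - zC j k b G τ₀ i x₀.1‖⁻¹ • (x₀.2 - zC j k b G τ₀ i x₀.1))) ?_ ?_
      · intro i' hi'
        have : i' = i := by
          by_contra hne
          have k1 := (zr_act h hτ₀ hs h0 hi).2.2.1
          have k2 := (zr_act h hτ₀ hs h0 hi').2.2.1
          have k3 := mul_pos hε hg
          obtain ⟨-, h3 | h3⟩ := zr_pair h hτ₀ hs hne (by linarith) (by linarith)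
          · exact hjk ⟨h3.1 ▸ hi', h3.2 ▸ hi⟩
          · exact hjk ⟨h3.2 ▸ hi, h3.1 ▸ hi'⟩
        rw [this]
        exact inner_self_neg _
      · intro _ h1
        exact absurd h1 hv.ne
  · refine zr_omega h hB hτ₀ hs hf (ω := -(‖x₀.2‖⁻¹ • x₀.2)) ?_ ?_
    · intro i' hi'
      exact absurd ⟨i', hi'⟩ hex
    · intro _ _
      exact inner_self_neg _

/-- **ZIP families are in the class `R`.** -/
theorem ZFam.rfam (h : ZFam s e ε R M j k b ν G)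
    (hB : (zpl e ε R M j k b ν G).Base s ε (fun x => ‖x.1‖)) :
    RFam s ((zpl e ε R M j k b ν G).fn ε (fun x => ‖x.1‖)) where
  cont := hB.glue.continuousOn_fn
  hom := fun τ hτ => hB.glue.hom1 hτ
  reg := fun τ hτ x hx h0 => by
    have h1 : gre (zpl e ε R M j k b ν G).rho τ x = 0 := congrArg Complex.re h0
    exact zr_reg h hB hτ (norm_ne_zero_iff.mp (hB.glue.N_ne hτ hx h1.ge)) h0

end Vale.Agent.P268.T.Z293
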